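import Vale.Agent.P216.H994.EtaNe
import Vale.Agent.P216.D337.Mid1
import Vale.Agent.P216.H971.LowGeo
import Vale.Agent.P216.H250.Pi0P

/-!
# P216-D, [ETANE]: the class `η` is not exact on the paths

`FibPF M c`: the fibre data (`H892.FibU`) of the path fibrations `PF b → M`, `w ↦ w 0`.
`etaNeK : FibPF M c → LowK Kf M (d - 1) B0 → EtaNeK Kf M d`.
-/

set_option linter.all false

open Set BoundedContinuousFunction

namespace Vale.Agent.P216.H994

open Vale.Agent.P216.Sl Vale.Agent.P216.PS Vale.Agent.P216.E2L Vale.Agent.P216.D907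
  Vale.Agent.P216.H892 Vale.Agent.P216.H977C
open Vale.Agent.P216.MV337 (evz)
open Vale.Agent.P216.H456 (PF PF_mono P_subset_PF)

/-- The fibre data of the path fibrations `PF b`, with one constant `c`. -/
def FibPF (M : Type) [MetricSpace M] (c : ℝ) : Prop :=
  ∀ b : M, ∃ (x₀ : M) (r0 : ℝ) (φ : M → ℝ → (ℝ →ᵇ M) → ℝ →ᵇ M)
    (ψ : M → ℝ → (ℝ →ᵇ M) → ℝ →ᵇ M),
    FibU (evz : (ℝ →ᵇ M) → M) (fun t => PF b t) (fun t => P x₀ b t) c r0 φ ψ

section

variable {k : Type} [Field k] {M : Type} [MetricSpace M]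

theorem dist_evz_le (w w' : ℝ →ᵇ M) : dist (evz w) (evz w') ≤ dist w w' :=
  BoundedContinuousFunction.dist_coe_le_dist 0

theorem fbr_PF (x b : M) (t : ℝ) : {w | w ∈ PF b t ∧ evz w = x} = P x b t := by
  ext w
  constructor
  · rintro ⟨⟨h1, h2, h3⟩, h4⟩
    exact ⟨h1, fun u hu => by rw [h2 u hu]; exact h4, h3⟩
  · rintro ⟨h1, h2, h3⟩
    exact ⟨⟨h1, fun u hu => by rw [h2 u hu, h2 0 le_rfl], h3⟩, h2 0 le_rfl⟩

variable [CompactSpace M]

/-- Low degrees, all cocycles. -/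
theorem lowZ_all {B0 t T : ℝ} {j : ℕ} (h : LowZ k M B0 j) (hj : j ≠ 0) (ht : 0 ≤ t)
    (hT : t + B0 ≤ T) (a b : M) (hX : P a b t ⊆ P a b T) (F : List (ℝ →ᵇ M) → k)
    (hF : CocL (P a b T) j F) : ExL (P a b t) j F := by
  have := low_zero (α := (fun e : Empty => e.elim)) (χ := fun e : Empty => e.elim) h ht hT hX
    (cls _ _ F hF)
  rwa [res_cls, cls_eq_zero] at this

/-- The classes `η` of the paths which start at different points. -/
theorem exL_eta_front {a x b : M} {d N m : ℕ} {T : ℝ} (hd : 2 ≤ d) (hT : 0 ≤ T) {ξ : List M → k}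
    (hξ : Nrm ξ) {v : ℝ →ᵇ M} (hv : v ∈ P a x m)
    (h : ExL (P a b (m + T)) (d - 1) (H140.eta N ξ)) :
    ExL (P x b T) (d - 1) (H140.eta N ξ) := by
  obtain ⟨g, hg0, ε, hε, hg⟩ := h
  have hm : (0:ℝ) ≤ m := Nat.cast_nonneg m
  refine ⟨fun l => g (l.map (cat m v)), fun h => by omega, ε, hε, fun l hl hs => ?_⟩
  have hl2 : 2 ≤ l.length := by omega
  have hvw : ∀ w ∈ l, v m = w 0 := fun w hw => by
    rw [eq_right hv le_rfl, eq_left (hs.1 w hw) le_rfl]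
  have e1 : H140.eta N ξ (l.map (cat m v)) = H140.eta N ξ l := by
    refine eta_front N hξ m (fun u => v u) (cat m v) l hl2 fun w hw => ⟨fun u h0 hu => ?_,
      fun u hu => ?_⟩
    · rw [cat_apply hv.1 (hs.1 w hw).1 (hvw w hw), catf_left hu]
    · rw [cat_apply hv.1 (hs.1 w hw).1 (hvw w hw), catf_right (hvw w hw) hu]
  rw [← e1, dl_map]
  refine hg _ (by rw [List.length_map]; exact hl) ⟨fun w hw => ?_, fun w hw w' hw' => ?_⟩
  · obtain ⟨u, hu, rfl⟩ := List.mem_map.1 hw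
    exact cat_mem hm hT hv (hs.1 u hu)
  · obtain ⟨u, hu, rfl⟩ := List.mem_map.1 hw
    obtain ⟨u', hu', rfl⟩ := List.mem_map.1 hw'
    refine (dist_cat_cat_le hv.1 hv.1 (hs.1 u hu).1 (hs.1 u' hu').1 (hvw u hu)
      (hvw u' hu')).trans_lt ?_
    rw [dist_self]
    exact max_lt hε (hs.2 u hu u' hu')

end

/-- **[ETANE]** -/
theorem etaNeK {Kf : Fld} {M : Type} [MetricSpace M] [CompactSpace M] {c B0 Dp : ℝ} {d : ℕ}
    (hd : 2 ≤ d) (hF : FibPF M c) (hDp : IsPi M Dp) (hB0 : 0 ≤ B0) (hL : LowK Kf M (d - 1) B0) :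
    D337.EtaNeK Kf M d := by
  have hD0 := hDp.nonneg
  rcases isEmpty_or_nonempty M with hM | ⟨⟨m₀⟩⟩
  · refine ⟨0, le_rfl, fun k _ _ ξ ε _ _ _ _ N _ a => hM.elim a⟩
  have hc : 0 ≤ c := by
    obtain ⟨x₀, r0, φ, ψ, U⟩ := hF m₀
    exact U.hc
  set K : ℝ := 2 * c + B0 + Dp with hK
  have hK0 : 0 ≤ K := by positivity
  set τ : ℕ → ℝ := fun j => 1 + Dp + ((d - 1 - j : ℕ) : ℝ) * K with hτ
  have hτ1 : ∀ j, 1 + Dp ≤ τ j := fun j => by
    have := mul_nonneg (Nat.cast_nonneg (α := ℝ) (d - 1 - j)) hK0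
    simp only [hτ]
    linarith
  have hτ0 : ∀ j, 0 < τ j := fun j => by linarith [hτ1 j]
  have hτs : ∀ j, j + 2 ≤ d → τ j = τ (j + 1) + K := fun j hj => by
    have : ((d - 1 - j : ℕ) : ℝ) = ((d - 1 - (j + 1) : ℕ) : ℝ) + 1 := by
      rw [show d - 1 - j = (d - 1 - (j + 1)) + 1 by omega]
      push_cast
      ring
    simp only [hτ]
    rw [this]
    ring
  have hτm : ∀ j, τ (j + 1) ≤ τ j := fun j => by
    have : ((d - 1 - (j + 1) : ℕ) : ℝ) ≤ ((d - 1 - j : ℕ) : ℝ) := by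
      exact_mod_cast (by omega : d - 1 - (j + 1) ≤ d - 1 - j)
    have := mul_le_mul_of_nonneg_right this hK0
    simp only [hτ]
    linarith
  refine ⟨(⌈Dp⌉₊ : ℝ) + (τ 0 + c + c), by have := hτ0 0; positivity,
    fun k _ hk ξ ε hε hξ hcξ hne N hN a b hex => hne ?_⟩
  obtain ⟨x₀, r0, φ, ψ, U⟩ := hF b
  obtain ⟨-, hη, -, -, -⟩ := etaOut k M d N ε ξ hd hε hξ hcξ hN
  refine exL_base (π := evz) (A := univ) (X := fun j => PF b (τ j)) (X₀ := PF b (τ 0 + c + c))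
    (s := (-1) ^ d) (η := H140.eta N ξ) dist_evz_le hd (fun j => PF_mono (hτm j))
    (fun j hj => ?_) (fun x _ => ?_) (fun r hr => ?_) (pow_ne_zero _ (by
      exact neg_ne_zero.2 one_ne_zero)) hξ ⟨ε, hε, hcξ⟩
    ⟨ε / 4, by positivity, fun ws hw hs => hη b _ ws hw hs⟩ fun x _ => ?_
  · -- null
    have ht := hτ0 (j + 1)
    have e : τ j = τ (j + 1) + (c + B0 + Dp) + c := by rw [hτs j hj, hK]; ring
    show NullB evz univ (PF b (τ j)) (PF b (τ (j + 1))) k (d - 2 - j)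
    rw [e]
    rcases Nat.eq_zero_or_pos (d - 2 - j) with h0 | h0
    · rw [h0]
      refine U.nullB_zero univ ht (by linarith) fun F hF => ?_
      by_cases hn : (P x₀ b (τ (j + 1) + c)).Nonempty
      · obtain ⟨v₀, hv₀⟩ := hn
        refine ⟨F [v₀], fun v hv => ?_⟩
        refine H971.Low.coc0_joined (hF.mono (P_mono ?_))
          (hDp.join x₀ b (τ (j + 1) + c) (by linarith) v hv v₀ hv₀)
        linarith
      · exact ⟨0, fun v hv => (hn ⟨v, hv⟩).elim⟩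
    · refine U.nullB univ (fun t => isCompact_P _ _ t) ht (by linarith) fun F hF => ?_
      exact lowZ_all ((hL k hk).2 _ h0 (by omega)) h0.ne' (by linarith)
        (by linarith) x₀ b (P_mono (by linarith)) F hF
  · -- non empty
    obtain ⟨w, hw⟩ := hDp.ne x b
    exact ⟨w, P_subset_PF (P_mono (by linarith [hτ1 (d - 1)]) hw), eq_left hw le_rfl⟩
  · -- (FS)
    obtain ⟨r', hr', h⟩ := U.locB (k := k) univ (fun t => isCompact_P _ _ t) (hτ0 0)
      (le_refl (τ 0 + c)) (d - 1) r hr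
    refine ⟨r', hr', fun x _ f hf he => ?_⟩
    obtain ⟨g, -, hg⟩ := h x [] ⟨fun _ _ => mem_univ _, fun y hy z hz => by
      rw [List.mem_singleton] at hy hz
      rw [hy, hz, dist_self]
      exact hr'⟩ f hf he
    exact ⟨g, hg⟩
  · -- the fibres
    rw [fbr_PF]
    obtain ⟨v, hv⟩ := hDp.ne a x
    have := hτ0 0
    exact exL_eta_front hd (by positivity) hξ (P_mono (Nat.le_ceil Dp) hv) hex

/-- **[ETANE]** for `M` compact, simply connected. -/
theorem etaNeK_sc {Kf : Fld} {M : Type} [MetricSpace M] [CompactSpace M] [SimplyConnectedSpace M]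
    {ρ : ℝ} (hρ : 0 < ρ) (hU : LS.UniqSeg M ρ) {c B0 : ℝ} {d : ℕ} (hd : 2 ≤ d) (hF : FibPF M c)
    (hB0 : 0 ≤ B0) (hL : LowK Kf M (d - 1) B0) : D337.EtaNeK Kf M d := by
  obtain ⟨Dp, hDp, hne, hj⟩ := H250.pi0 hρ hU
  exact etaNeK hd hF ⟨hDp, hne, hj⟩ hB0 hL

end Vale.Agent.P216.H994
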