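import Vale.Agent.P216.T695.Iface

set_option linter.unusedSectionVars false

/-!
# Theorem C of P216 (`S^3` and all odd dimensions `≥ 3`): interface, `p = 2`, `k = F_2`
(note 13402)

`T2Sys` collects everything that topology has to deliver; `T2Goal` is the final algebraic theorem.

* `H t n = H^n(X_t)`, `F t n = H^n_{S^1}(X_t)`, `Hi`, `Fi` the global classes, as in `PSysB`.
* For a pair `s ≤ t` of regular levels with at most one critical level between (`Adm`),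
  `Rel2` is: `N n = H^n(X_t, X_s)`, `R n = H^n_{S^1}(X_t, X_s)`, their long exact sequences,
  the Gysin maps `uR`, `πR`, `dR`, the reversal `θN` on `N`, and the projections `eN`, `eR` onto
  the critical circles of one orientation (`θN eN = (1 - eN) θN`, `eN πR = πR eR`).
* `Loc2` is the localisation `R(s,t) → N(s/p, t/p)`, compatible with `j` and with `e`.
-/

open Module

namespace Vale.Agent.P216.H994

open Vale.Agent.P216.AS (USeq Crit)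
open Vale.Agent.P216.T695 (Loc Rinf)

/-- two regular levels with at most one critical level between -/
structure Adm (crit : Set ℝ) (s t : ℝ) : Prop where
  pos : 0 < s
  le : s ≤ t
  hs : s ∉ crit
  ht : t ∉ crit
  one : (crit ∩ Set.Ioo s t).Subsingleton

theorem Adm.pos' {crit : Set ℝ} {s t : ℝ} (h : Adm crit s t) : 0 < t := h.pos.trans_le h.le

/-- relative groups of an admissible pair -/
structure Rel2 (k : Type) [Field k] {Ht Ft Hs Fs : ℕ → Type}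
    [∀ n, AddCommGroup (Ht n)] [∀ n, Module k (Ht n)]
    [∀ n, AddCommGroup (Ft n)] [∀ n, Module k (Ft n)]
    [∀ n, AddCommGroup (Hs n)] [∀ n, Module k (Hs n)]
    [∀ n, AddCommGroup (Fs n)] [∀ n, Module k (Fs n)]
    (Gt : USeq k Ft Ht) (Gs : USeq k Fs Hs)
    (ρH : ∀ n, Ht n →ₗ[k] Hs n) (ρF : ∀ n, Ft n →ₗ[k] Fs n)
    (θt : ∀ n, Ht n →ₗ[k] Ht n) (θs : ∀ n, Hs n →ₗ[k] Hs n) where
  /-- `H^n(X_t, X_s)` -/
  N : ℕ → Type
  /-- `H^n_{S^1}(X_t, X_s)` -/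
  R : ℕ → Type
  [agN : ∀ n, AddCommGroup (N n)]
  [moN : ∀ n, Module k (N n)]
  [agR : ∀ n, AddCommGroup (R n)]
  [moR : ∀ n, Module k (R n)]
  jH : ∀ n, N n →ₗ[k] Ht n
  δH : ∀ n, Hs n →ₗ[k] N (n + 1)
  jF : ∀ n, R n →ₗ[k] Ft n
  δF : ∀ n, Fs n →ₗ[k] R (n + 1)
  injH : Function.Injective (jH 0)
  exH1 : ∀ n, Function.Exact (jH n) (ρH n)
  exH2 : ∀ n, Function.Exact (ρH n) (δH n)
  exH3 : ∀ n, Function.Exact (δH n) (jH (n + 1))
  exF1 : ∀ n, Function.Exact (jF n) (ρF n)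
  exF2 : ∀ n, Function.Exact (ρF n) (δF n)
  exF3 : ∀ n, Function.Exact (δF n) (jF (n + 1))
  /-- relative Gysin maps -/
  uR : ∀ n, R n →ₗ[k] R (n + 2)
  πR : ∀ n, R n →ₗ[k] N n
  dR : ∀ n, N (n + 1) →ₗ[k] R n
  j_u : ∀ n x, jF (n + 2) (uR n x) = Gt.u n (jF n x)
  j_π : ∀ n x, jH n (πR n x) = Gt.π n (jF n x)
  δ_π : ∀ n x, δH n (Gs.π n x) = πR (n + 1) (δF n x)
  δ_d : ∀ n x, dR (n + 1) (δH (n + 1) x) = δF n (Gs.d n x)
  πuR : ∀ n x, πR (n + 2) (uR n x) = 0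
  exR : ∀ n, Function.Exact (πR (n + 1)) (dR n)
  /-- reversal on the relative groups -/
  θN : ∀ n, N n →ₗ[k] N n
  θθN : ∀ n x, θN n (θN n x) = x
  θ_j : ∀ n x, θt n (jH n x) = jH n (θN n x)
  θ_δ : ∀ n x, θN (n + 1) (δH n x) = δH n (θs n x)
  /-- projection onto one half of the critical circles -/
  eN : ∀ n, N n →ₗ[k] N n
  eR : ∀ n, R n →ₗ[k] R n
  e_π : ∀ n x, eN n (πR n x) = πR n (eR n x)
  θ_e : ∀ n x, θN n (eN n x) = θN n x - eN n (θN n x)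

attribute [instance] Rel2.agN Rel2.moN Rel2.agR Rel2.moR

/-- localisation of the relative groups: `T` at the levels `(s, t)`, `T'` at `(s / p, t / p)` -/
structure Loc2 {k : Type} [Field k] {Ht Ft Hs Fs Ht' Ft' Hs' Fs' : ℕ → Type}
    [∀ n, AddCommGroup (Ht n)] [∀ n, Module k (Ht n)]
    [∀ n, AddCommGroup (Ft n)] [∀ n, Module k (Ft n)]
    [∀ n, AddCommGroup (Hs n)] [∀ n, Module k (Hs n)]
    [∀ n, AddCommGroup (Fs n)] [∀ n, Module k (Fs n)]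
    [∀ n, AddCommGroup (Ht' n)] [∀ n, Module k (Ht' n)]
    [∀ n, AddCommGroup (Ft' n)] [∀ n, Module k (Ft' n)]
    [∀ n, AddCommGroup (Hs' n)] [∀ n, Module k (Hs' n)]
    [∀ n, AddCommGroup (Fs' n)] [∀ n, Module k (Fs' n)]
    {Gt : USeq k Ft Ht} {Gs : USeq k Fs Hs} {Gt' : USeq k Ft' Ht'} {Gs' : USeq k Fs' Hs'}
    {ρH : ∀ n, Ht n →ₗ[k] Hs n} {ρF : ∀ n, Ft n →ₗ[k] Fs n}
    {θt : ∀ n, Ht n →ₗ[k] Ht n} {θs : ∀ n, Hs n →ₗ[k] Hs n}
    {ρH' : ∀ n, Ht' n →ₗ[k] Hs' n} {ρF' : ∀ n, Ft' n →ₗ[k] Fs' n}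
    {θt' : ∀ n, Ht' n →ₗ[k] Ht' n} {θs' : ∀ n, Hs' n →ₗ[k] Hs' n}
    (T : Rel2 k Gt Gs ρH ρF θt θs) (T' : Rel2 k Gt' Gs' ρH' ρF' θt' θs')
    (L : Loc k Ft Ht' Gt.u) where
  ℓR : ∀ n m, T.R n →ₗ[k] T'.N m
  ℓ_j : ∀ n m x, L.ℓ n m (T.jF n x) = T'.jH m (ℓR n m x)
  ℓ_e : ∀ n m x, ℓR n m (T.eR n x) = T'.eN m (ℓR n m x)

/-- What topology delivers at `p = 2` for `S^3` (and all odd dimensions `≥ 3`). -/
structure T2Sys (k : Type) [Field k] (p : ℕ) (crit : Set ℝ) (K : ℕ) (B0 B1 : ℝ) where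
  two : (2 : k) = 0
  H : ℝ → ℕ → Type
  F : ℝ → ℕ → Type
  Hi : ℕ → Type
  Fi : ℕ → Type
  [agH : ∀ t n, AddCommGroup (H t n)]
  [moH : ∀ t n, Module k (H t n)]
  [agF : ∀ t n, AddCommGroup (F t n)]
  [moF : ∀ t n, Module k (F t n)]
  [agHi : ∀ n, AddCommGroup (Hi n)]
  [moHi : ∀ n, Module k (Hi n)]
  [agFi : ∀ n, AddCommGroup (Fi n)]
  [moFi : ∀ n, Module k (Fi n)]
  /-- Gysin sequence at the level `t` -/
  G : ∀ t, USeq k (F t) (H t)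
  /-- localisation -/
  L : ∀ t, 0 < t → t ∉ crit → Loc k (F t) (H (t / p)) (G t).u
  /-- global classes -/
  ui : ∀ n, Fi n →ₗ[k] Fi (n + 2)
  πi : ∀ n, Fi n →ₗ[k] Hi n
  rH : ∀ t n, Hi n →ₗ[k] H t n
  rF : ∀ t n, Fi n →ₗ[k] F t n
  rF_u : ∀ t n x, rF t (n + 2) (ui n x) = (G t).u n (rF t n x)
  π_rF : ∀ t n x, (G t).π n (rF t n x) = rH t n (πi n x)
  glob : ∀ t (h0 : 0 < t) (h : t ∉ crit) e j x,
    (L t h0 h).ℓ e j (rF t e x) ∈ LinearMap.range (rH (t / p) j)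
  /-- all global classes of even degree lift -/
  lift : ∀ n, n % 2 = 0 → Function.Surjective (πi n)
  /-- finiteness -/
  finH : ∀ t, 0 < t → t ∉ crit → ∀ n, FiniteDimensional k (H t n)
  topH : ∀ t, 0 < t → t ∉ crit → ∃ N, ∀ n ≥ N, Subsingleton (H t n)
  /-- bounded finite bars (all parities) -/
  bars : ∀ t, 0 < t → t ∉ crit → ∀ m,
    ∑ n ∈ Finset.range m, (finrank k (H t n) - finrank k (LinearMap.range (rH t n))) ≤ K
  /-- restriction maps -/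
  ρH : ∀ s t, s ≤ t → ∀ n, H t n →ₗ[k] H s n
  ρF : ∀ s t, s ≤ t → ∀ n, F t n →ₗ[k] F s n
  ρH_rH : ∀ s t (h : s ≤ t) n x, ρH s t h n (rH t n x) = rH s n x
  ρF_rF : ∀ s t (h : s ≤ t) n x, ρF s t h n (rF t n x) = rF s n x
  ρF_u : ∀ s t (h : s ≤ t) n x, (G s).u n (ρF s t h n x) = ρF s t h (n + 2) ((G t).u n x)
  ρ_π : ∀ s t (h : s ≤ t) n x, (G s).π n (ρF s t h n x) = ρH s t h n ((G t).π n x)
  /-- no critical level between `s` and `t`: the restriction is bijective -/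
  reg : ∀ s t (h : s ≤ t), 0 < s → (∀ x ∈ Set.Icc s t, x ∉ crit) →
    ∀ n, Function.Bijective (ρH s t h n)
  /-- reversal; it fixes the global classes (`k = F_2`, each degree is at most a line) -/
  θ : ∀ t n, H t n →ₗ[k] H t n
  θθ : ∀ t n x, θ t n (θ t n x) = x
  θ_ρ : ∀ s t (h : s ≤ t) n x, θ s n (ρH s t h n x) = ρH s t h n (θ t n x)
  θ_r : ∀ t n x, θ t n (rH t n x) = rH t n x
  /-- relative groups of admissible pairs -/
  rel : ∀ s t (h : Adm crit s t),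
    Rel2 k (G t) (G s) (ρH s t h.le) (ρF s t h.le) (θ t) (θ s)
  /-- localisation of the relative groups -/
  loc : ∀ s t (h : Adm crit s t) (h' : Adm crit (s / p) (t / p)),
    Nonempty (Loc2 (rel s t h) (rel (s / p) (t / p) h') (L t h.pos' h.ht))
  /-- the classes `y_i`, of odd degree `f i` -/
  f : ℕ → ℕ
  f_mono : StrictMono f
  f_odd : ∀ i, f i % 2 = 1
  y : ∀ i, Hi (f i)
  /-- the differential `d_2` vanishes on the global classes of degree `f i + 1` -/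
  d2 : ∀ i s t (h : Adm crit s t) (ω : H s (f i)) (g : (rel s t h).N (f i + 1)),
    (rel s t h).jH (f i + 1) g ∈ LinearMap.range (rH t (f i + 1)) →
    (rel s t h).δH (f i) ω = g + (rel s t h).θN (f i + 1) g →
    ∃ ω' : H t (f i), ρH s t h.le (f i) (ω' + θ t (f i) ω') = ω + θ s (f i) ω
  /-- births -/
  birth0 : ∀ t, B0 ≤ t → 0 < t → t ∉ crit → rH t (f 0) (y 0) ≠ 0
  birth : ∀ i s t, 0 < s → s ∉ crit → t ∉ crit → s + B1 ≤ t →
    rH s (f i) (y i) ≠ 0 → rH t (f (i + 1)) (y (i + 1)) ≠ 0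

attribute [instance] T2Sys.agH T2Sys.moH T2Sys.agF T2Sys.moF T2Sys.agHi T2Sys.moHi T2Sys.agFi
  T2Sys.moFi

/-- **The goal.** -/
def T2Goal : Prop := ∀ {ι : Type} [Finite ι] (ℓ : ι → ℝ) (_ : ∀ i, 0 < ℓ i) (k : Type) [Field k]
  (p : ℕ) (_ : 2 ≤ p) (K : ℕ) (B0 B1 : ℝ), T2Sys k p (Crit ℓ) K B0 B1 → False

end Vale.Agent.P216.H994
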