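import Vale.Agent.P216.H994.TX
import Vale.Agent.P216.H994.T2Iface

set_option linter.unusedSectionVars false

/-!
# Theorem C of P216: the algebraic argument at `p = 2` (note 13402)

`t2Goal : T2Goal`.
-/

open Module Set

namespace Vale.Agent.P216.H994

open Vale.Agent.P216.AS (USeq Crit)
open Vale.Agent.P216.T695 (Loc Rinf fin_F mem_tor_iff exists_reg crit_finite)
open Vale.Agent.P216.Tight923 (tor mem_tor ker_le_tor u_mem_tor)
open Vale.Agent.P216.B633 (propT12)

/-- a property of regular values which propagates upwards across one critical value propagates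
upwards -/
theorem chain_imp {crit : Set ℝ} (hf : ∀ t, (crit ∩ Iic t).Finite) (P : ℝ → Prop)
    {a b : ℝ} (hP : ∀ s t, s ∈ Ioo a b → t ∈ Ioo a b → s < t → s ∉ crit → t ∉ crit →
      (crit ∩ Ioo s t).Subsingleton → P s → P t) :
    ∀ s t, s ∈ Ioo a b → t ∈ Ioo a b → s < t → s ∉ crit → t ∉ crit → P s → P t := by
  have hfin : ∀ s t, (crit ∩ Ioo s t).Finite := fun s t =>
    (hf t).subset fun x hx => ⟨hx.1, hx.2.2.le⟩
  have key : ∀ n : ℕ, ∀ s t, s ∈ Ioo a b → t ∈ Ioo a b → s < t → s ∉ crit → t ∉ crit →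
      (crit ∩ Ioo s t).ncard ≤ n → P s → P t := by
    intro n
    induction n with
    | zero =>
      intro s t hs ht hst hs' ht' hn
      apply hP s t hs ht hst hs' ht'
      have : crit ∩ Ioo s t = ∅ := by
        rw [← Set.ncard_eq_zero (hfin s t)]
        omega
      rw [this]
      exact subsingleton_empty
    | succ n ih =>
      intro s t hs ht hst hs' ht' hn
      by_cases hsub : (crit ∩ Ioo s t).Subsingleton
      · exact hP s t hs ht hst hs' ht' hsub
      · rw [Set.not_subsingleton_iff] at hsub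
        obtain ⟨x, hx, y, hy, hxy⟩ := hsub.exists_lt
        obtain ⟨r, hr, hr'⟩ := exists_reg hf hxy
        have hrI : r ∈ Ioo s t := ⟨hx.2.1.trans hr.1, hr.2.trans hy.2.2⟩
        have hrJ : r ∈ Ioo a b := ⟨hs.1.trans hrI.1, hrI.2.trans ht.2⟩
        have c1 : (crit ∩ Ioo s r).ncard < (crit ∩ Ioo s t).ncard := by
          apply Set.ncard_lt_ncard _ (hfin s t)
          refine ⟨fun z hz => ⟨hz.1, hz.2.1, hz.2.2.trans hrI.2⟩, fun h => ?_⟩
          have := (h hy).2.2
          exact absurd this (not_lt.2 hr.2.le)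
        have c2 : (crit ∩ Ioo r t).ncard < (crit ∩ Ioo s t).ncard := by
          apply Set.ncard_lt_ncard _ (hfin s t)
          refine ⟨fun z hz => ⟨hz.1, hrI.1.trans hz.2.1, hz.2.2⟩, fun h => ?_⟩
          have := (h hx).2.1
          exact absurd this (not_lt.2 hr.1.le)
        intro h
        exact ih r t hrJ ht hrI.2 hr' ht' (by omega)
          (ih s r hs hrJ hrI.1 hs' hr' (by omega) h)
  intro s t hs ht hst hs' ht'
  exact key _ s t hs ht hst hs' ht' le_rfl

namespace T2Sys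

variable {k : Type} [Field k] {p : ℕ} {crit : Set ℝ} {K : ℕ} {B0 B1 : ℝ}
  (S : T2Sys k p crit K B0 B1)

/-- the conclusions of the equality case at the level `t` -/
structure Tight (t : ℝ) : Prop where
  pos : 0 < t
  reg : t ∉ crit
  odd : ∀ e, e % 2 = 1 → ∀ x, x ∈ tor (S.G t).u e → x = 0
  even : ∀ e, e % 2 = 0 → ∀ x : S.F t e,
    (∀ j, (S.L t pos reg).ℓ e j x ∈ LinearMap.range (S.rH (t / p) j)) →
      x ∈ LinearMap.range (S.rF t e)

variable {S}

theorem Tight.tor_le {t : ℝ} (h : S.Tight t) {e : ℕ} (he : e % 2 = 0) {x : S.F t e}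
    (hx : x ∈ tor (S.G t).u e) : x ∈ LinearMap.range (S.rF t e) := by
  apply h.even e he
  intro j
  rw [(mem_tor_iff (S.L t h.pos h.reg)).1 hx j]
  exact Submodule.zero_mem _

theorem Tight.div {t : ℝ} (h : S.Tight t) {e : ℕ} (he : e % 2 = 0) {x : S.F t e}
    (hx : (S.G t).u e x ∈ LinearMap.range (S.rF t (e + 2))) : x ∈ LinearMap.range (S.rF t e) := by
  apply h.even e he
  intro j
  obtain ⟨w, hw⟩ := hx
  rw [← (S.L t h.pos h.reg).ℓ_u, ← hw]
  exact S.glob t h.pos h.reg (e + 2) j w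

variable (S)

/-- `e`-stability of the kernel of `H^odd(X_t, X_s) → H^odd(X_t)` -/
def StabO {s t : ℝ} (h : Adm crit s t) : Prop := ∀ n, n % 2 = 1 → ∀ z : (S.rel s t h).N n,
  (S.rel s t h).jH n z = 0 → (S.rel s t h).jH n ((S.rel s t h).eN n z) = 0

/-- `e`-stability of the preimage of the global classes in `H^even(X_t, X_s)` -/
def StabE {s t : ℝ} (h : Adm crit s t) : Prop := ∀ n, n % 2 = 0 → ∀ z : (S.rel s t h).N n,
  (S.rel s t h).jH n z ∈ LinearMap.range (S.rH t n) →
    (S.rel s t h).jH n ((S.rel s t h).eN n z) ∈ LinearMap.range (S.rH t n)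

variable {S}

/-- the base of the induction: no critical level -/
theorem stab_base {s t : ℝ} (h : Adm crit s t)
    (hinj : ∀ n, Function.Injective (S.ρH s t h.le n)) : S.StabO h ∧ S.StabE h := by
  have h0 : ∀ n z, (S.rel s t h).jH n z = 0 := by
    intro n z
    apply hinj n
    rw [(S.rel s t h).exH1 n |>.apply_apply_eq_zero, map_zero]
  refine ⟨fun n _ z _ => h0 n _, fun n _ z _ => ?_⟩
  rw [h0 n _]
  exact Submodule.zero_mem _

theorem stab_step {s t : ℝ} (h : Adm crit s t) (h' : Adm crit (s / p) (t / p))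
    (es : S.Tight s) (et : S.Tight t) (ho : S.StabO h') (he : S.StabE h') :
    S.StabO h ∧ S.StabE h := by
  obtain ⟨L2⟩ := S.loc s t h h'
  set T := S.rel s t h with hT
  set T' := S.rel (s / p) (t / p) h' with hT'
  -- the statements for the `S^1`-groups
  have hRo : ∀ n, n % 2 = 1 → ∀ ζ : T.R n, T.jF n ζ = 0 → T.jF n (T.eR n ζ) = 0 := by
    intro n hn ζ hζ
    apply et.odd n hn
    rw [mem_tor_iff (S.L t h.pos' h.ht)]
    intro j
    by_cases hj : j % 2 = 1
    · rw [L2.ℓ_j, L2.ℓ_e]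
      apply ho j hj
      have := L2.ℓ_j n j ζ
      rw [hζ, map_zero] at this
      exact this.symm
    · exact (S.L t h.pos' h.ht).par n j (by omega) _
  have hRe : ∀ n, n % 2 = 0 → ∀ ζ : T.R n, T.jF n ζ ∈ LinearMap.range (S.rF t n) →
      T.jF n (T.eR n ζ) ∈ LinearMap.range (S.rF t n) := by
    intro n hn ζ hζ
    apply et.even n hn
    intro j
    by_cases hj : j % 2 = 0
    · have h1 := L2.ℓ_j n j (T.eR n ζ)
      have h2 := L2.ℓ_e n j ζ
      rw [h2] at h1
      rw [h1]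
      apply he j hj
      have h3 := L2.ℓ_j n j ζ
      change T'.jH j (L2.ℓR n j ζ) ∈ _
      rw [← h3]
      obtain ⟨w, hw⟩ := hζ
      rw [← hw]
      exact S.glob t h.pos' h.ht n j w
    · have := (S.L t h.pos' h.ht).par n j (by omega) (T.jF n (T.eR n ζ))
      rw [this]
      exact Submodule.zero_mem _
  constructor
  · -- odd degrees
    intro n hn z hz
    obtain ⟨m, rfl⟩ : ∃ m, n = m + 1 := ⟨n - 1, by omega⟩
    obtain ⟨h0, rfl⟩ := (T.exH3 m z).1 hz
    -- every class of even degree of `X_s` lifts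
    obtain ⟨φ, rfl⟩ : ∃ φ, (S.G s).π m φ = h0 := by
      rcases Nat.eq_zero_or_pos m with rfl | hm
      · exact (S.G s).surj0 h0
      · obtain ⟨m, rfl⟩ : ∃ m', m = m' + 1 := ⟨m - 1, by omega⟩
        apply ((S.G s).ex1 m h0).1
        apply es.odd m (by omega)
        apply ker_le_tor
        exact (S.G s).ex2 m |>.apply_apply_eq_zero h0
    change T.jH (m + 1) (T.eN (m + 1) (T.δH m ((S.G s).π m φ))) = 0
    rw [T.δ_π, T.e_π, T.j_π, hRo (m + 1) hn _ ((T.exF3 m).apply_apply_eq_zero φ), map_zero]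
  · -- even degrees
    intro n hn z hz
    -- (A) a class with the same image, coming from the equivariant groups
    have hA : ∃ r : T.R n, T.jF n r ∈ LinearMap.range (S.rF t n) ∧
        T.jH n (T.πR n r) = T.jH n z := by
      obtain ⟨w0, hw0⟩ := hz
      obtain ⟨w, rfl⟩ := S.lift n hn w0
      rw [← S.π_rF] at hw0
      have h1 : (S.G s).π n (S.ρF s t h.le n (S.rF t n w)) = 0 := by
        rw [S.ρ_π, hw0]
        exact (T.exH1 n).apply_apply_eq_zero z
      match n, hn, z, w, hw0, h1 with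
      | 0, hn, z, w, hw0, h1 =>
        have h2 : S.ρF s t h.le 0 (S.rF t 0 w) = 0 := (S.G s).inj0 (by rw [h1, map_zero])
        obtain ⟨r, hr⟩ := (T.exF1 0 _).1 h2
        refine ⟨r, ?_, ?_⟩
        · rw [hr]
          exact ⟨w, rfl⟩
        · rw [T.j_π, hr, hw0]
      | 1, hn, z, w, hw0, h1 => omega
      | m + 2, hn, z, w, hw0, h1 =>
        obtain ⟨φ, hφ⟩ := ((S.G s).ex3 m _).1 h1
        obtain ⟨w1, hw1⟩ : φ ∈ LinearMap.range (S.rF s m) := by
          apply es.div (by omega)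
          rw [hφ, S.ρF_rF]
          exact ⟨w, rfl⟩
        have h2 : S.ρF s t h.le (m + 2) (S.rF t (m + 2) w - (S.G t).u m (S.rF t m w1)) = 0 := by
          rw [map_sub, ← S.ρF_u, S.ρF_rF s t h.le m w1, hw1, hφ, sub_self]
        obtain ⟨r, hr⟩ := (T.exF1 (m + 2) _).1 h2
        refine ⟨r, ?_, ?_⟩
        · rw [hr, ← S.rF_u, ← map_sub]
          exact ⟨_, rfl⟩
        · rw [T.j_π, hr, map_sub, ((S.G t).ex3 m).apply_apply_eq_zero, sub_zero, hw0]
    -- (B) the kernel of `jH`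
    have hB : ∀ z' : T.N n, T.jH n z' = 0 → ∃ r : T.R n,
        T.jF n r ∈ LinearMap.range (S.rF t n) ∧ T.πR n r = z' := by
      intro z' hz'
      rcases Nat.eq_zero_or_pos n with rfl | hn0
      · refine ⟨0, ?_, ?_⟩
        · rw [map_zero]
          exact Submodule.zero_mem _
        · rw [map_zero]
          exact T.injH (by rw [hz', map_zero])
      · obtain ⟨m, rfl⟩ : ∃ m, n = m + 2 := ⟨n - 2, by omega⟩
        obtain ⟨h0, rfl⟩ := (T.exH3 (m + 1) z').1 hz'
        obtain ⟨g, hg⟩ : (S.G s).d m h0 ∈ LinearMap.range (S.rF s m) := by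
          apply es.tor_le (by omega)
          apply ker_le_tor
          exact ((S.G s).ex2 m).apply_apply_eq_zero h0
        have h1 : T.dR (m + 1) (T.δH (m + 1) h0) = 0 := by
          rw [T.δ_d, ← hg, ← S.ρF_rF s t h.le]
          exact (T.exF2 m).apply_apply_eq_zero _
        obtain ⟨r1, hr1⟩ := (T.exR (m + 1) _).1 h1
        have h2 : (S.G t).π (m + 2) (T.jF (m + 2) r1) = 0 := by
          rw [← T.j_π, hr1]
          exact hz'
        obtain ⟨φ, hφ⟩ := ((S.G t).ex3 m _).1 h2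
        obtain ⟨g2, hg2⟩ : S.ρF s t h.le m φ ∈ LinearMap.range (S.rF s m) := by
          apply es.tor_le (by omega)
          apply ker_le_tor
          show (S.G s).u m _ = 0
          rw [S.ρF_u, hφ]
          exact (T.exF1 (m + 2)).apply_apply_eq_zero r1
        have h3 : S.ρF s t h.le m (φ - S.rF t m g2) = 0 := by
          rw [map_sub, S.ρF_rF, hg2, sub_self]
        obtain ⟨r2, hr2⟩ := (T.exF1 m _).1 h3
        refine ⟨r1 - T.uR m r2, ?_, ?_⟩
        · rw [map_sub, T.j_u, hr2, ← hφ, map_sub, sub_sub_cancel, ← S.rF_u]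
          exact ⟨_, rfl⟩
        · rw [map_sub, T.πuR, sub_zero, hr1]
    obtain ⟨r, hr, hr'⟩ := hA
    obtain ⟨r', hr1, hr2⟩ := hB (z - T.πR n r) (by rw [map_sub, hr', sub_self])
    have hz2 : z = T.πR n (r + r') := by
      rw [map_add, hr2]
      abel
    have h1 : T.jF n (r + r') ∈ LinearMap.range (S.rF t n) := by
      rw [map_add]
      exact Submodule.add_mem _ hr hr1
    obtain ⟨w, hw⟩ := hRe n hn _ h1
    change T.jH n (T.eN n z) ∈ _
    rw [hz2, T.e_π, T.j_π, ← hw, S.π_rF]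
    exact ⟨_, rfl⟩

theorem add_self_eq (h2 : (2 : k) = 0) {V : Type} [AddCommGroup V] [Module k V] (x : V) :
    x + x = 0 := by
  rw [← two_smul k x, h2, zero_smul]

theorem neg_eq_self' (h2 : (2 : k) = 0) {V : Type} [AddCommGroup V] [Module k V] (x : V) :
    -x = x := by
  rw [neg_eq_iff_add_eq_zero]
  exact add_self_eq h2 x

/-- the propagation: `y_i` is a norm -/
theorem main_step {s t : ℝ} (h : Adm crit s t) (so : S.StabO h) (se : S.StabE h) (i : ℕ)
    (hs : ∃ ω : S.H s (S.f i), ω + S.θ s (S.f i) ω = S.rH s (S.f i) (S.y i)) :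
    ∃ ω : S.H t (S.f i), ω + S.θ t (S.f i) ω = S.rH t (S.f i) (S.y i) := by
  obtain ⟨ω, hω⟩ := hs
  set T := S.rel s t h with hT
  have h2 := S.two
  -- `g0 = δ ω` is invariant
  have hθω : S.θ s (S.f i) ω = S.rH s (S.f i) (S.y i) - ω := by
    rw [← hω]
    abel
  have hg0 : T.θN (S.f i + 1) (T.δH (S.f i) ω) = T.δH (S.f i) ω := by
    rw [T.θ_δ, hθω, map_sub, ← S.ρH_rH s t h.le, (T.exH2 (S.f i)).apply_apply_eq_zero, zero_sub]
    exact neg_eq_self' h2 _
  have hg : T.δH (S.f i) ω = T.eN (S.f i + 1) (T.δH (S.f i) ω) +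
      T.θN (S.f i + 1) (T.eN (S.f i + 1) (T.δH (S.f i) ω)) := by
    rw [T.θ_e, hg0]
    abel
  have hj0 : T.jH (S.f i + 1) (T.eN (S.f i + 1) (T.δH (S.f i) ω)) ∈
      LinearMap.range (S.rH t (S.f i + 1)) := by
    apply se (S.f i + 1) (by have := S.f_odd i; omega)
    change T.jH (S.f i + 1) (T.δH (S.f i) ω) ∈ _
    rw [(T.exH3 (S.f i)).apply_apply_eq_zero]
    exact Submodule.zero_mem _
  obtain ⟨ω', hω'⟩ := S.d2 i s t h ω _ hj0 hg
  -- the difference comes from the relative group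
  have h3 : S.ρH s t h.le (S.f i) (S.rH t (S.f i) (S.y i) - (ω' + S.θ t (S.f i) ω')) = 0 := by
    rw [map_sub, hω', hω, S.ρH_rH, sub_self]
  obtain ⟨w, hw⟩ := (T.exH1 (S.f i) _).1 h3
  -- `v = e (w + θ w)` is killed by `jH`
  have hja : T.jH (S.f i) (w + T.θN (S.f i) w) = 0 := by
    rw [map_add, ← T.θ_j, hw, map_sub, map_add, S.θ_r, S.θθ]
    have e1 := add_self_eq h2 (S.rH t (S.f i) (S.y i))
    have e2 := add_self_eq h2 (ω' + S.θ t (S.f i) ω')
    have e3 : S.rH t (S.f i) (S.y i) - (ω' + S.θ t (S.f i) ω') +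
        (S.rH t (S.f i) (S.y i) - (S.θ t (S.f i) ω' + ω')) =
        (S.rH t (S.f i) (S.y i) + S.rH t (S.f i) (S.y i)) -
          ((ω' + S.θ t (S.f i) ω') + (ω' + S.θ t (S.f i) ω')) := by abel
    rw [e3, e1, e2, sub_zero]
  have hjv : T.jH (S.f i) (T.eN (S.f i) (w + T.θN (S.f i) w)) = 0 := so (S.f i) (S.f_odd i) _ hja
  have hθa : T.θN (S.f i) (w + T.θN (S.f i) w) = w + T.θN (S.f i) w := by
    rw [map_add, T.θθN, add_comm]
  set v := T.eN (S.f i) (w + T.θN (S.f i) w) with hv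
  have hθv : T.θN (S.f i) v = w + T.θN (S.f i) w - v := by
    rw [hv, T.θ_e, hθa]
  -- `w2 = w - v` is invariant
  have hw2 : T.θN (S.f i) (w - v) = w - v := by
    rw [map_sub, hθv]
    have e1 : T.θN (S.f i) w - (w + T.θN (S.f i) w - v) = -(w - v) := by abel
    rw [e1]
    exact neg_eq_self' h2 _
  have hw3 : w - v = T.eN (S.f i) (w - v) + T.θN (S.f i) (T.eN (S.f i) (w - v)) := by
    rw [T.θ_e, hw2]
    abel
  have hj2 : T.jH (S.f i) (w - v) = S.rH t (S.f i) (S.y i) - (ω' + S.θ t (S.f i) ω') := by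
    rw [map_sub, hjv, sub_zero, hw]
  refine ⟨ω' + T.jH (S.f i) (T.eN (S.f i) (w - v)), ?_⟩
  rw [map_add, T.θ_j]
  have e4 : ω' + T.jH (S.f i) (T.eN (S.f i) (w - v)) +
      (S.θ t (S.f i) ω' + T.jH (S.f i) (T.θN (S.f i) (T.eN (S.f i) (w - v)))) =
      (ω' + S.θ t (S.f i) ω') + (T.jH (S.f i) (T.eN (S.f i) (w - v)) +
        T.jH (S.f i) (T.θN (S.f i) (T.eN (S.f i) (w - v)))) := by abel
  rw [e4, ← map_add, ← hw3, hj2]
  abel

/-! ### The region -/

theorem rinf_le {t : ℝ} (ht : 0 < t) (ht' : t ∉ crit) : Rinf k (S.rH t) 0 ≤ K := by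
  obtain ⟨N, hN⟩ := S.topH t ht ht'
  unfold Rinf
  rw [finsum_eq_sum_of_support_subset (s := Finset.range N)]
  · refine le_trans (Finset.sum_le_sum fun n _ => ?_) (S.bars t ht ht' N)
    split_ifs
    · exact le_rfl
    · exact Nat.zero_le _
  · intro n hn
    rw [Finset.coe_range, mem_Iio]
    by_contra h
    apply hn
    have := hN n (not_lt.1 h)
    have h1 : finrank k (S.H t n) = 0 := finrank_zero_of_subsingleton
    simp only [h1, Nat.zero_sub, ite_self]

theorem rinf_const {s t : ℝ} (hs : 0 < s) (hst : s ≤ t) (h : ∀ x ∈ Icc s t, x ∉ crit) :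
    Rinf k (S.rH s) 0 = Rinf k (S.rH t) 0 := by
  unfold Rinf
  congr 1
  ext n
  have hb := S.reg s t hst hs h n
  have h1 : finrank k (S.H t n) = finrank k (S.H s n) :=
    LinearEquiv.finrank_eq (LinearEquiv.ofBijective _ hb)
  have h2 : LinearMap.range (S.rH s n) = (LinearMap.range (S.rH t n)).map (S.ρH s t hst n) := by
    ext y
    constructor
    · rintro ⟨x, rfl⟩
      exact ⟨_, ⟨x, rfl⟩, S.ρH_rH s t hst n x⟩
    · rintro ⟨_, ⟨x, rfl⟩, rfl⟩
      exact ⟨x, (S.ρH_rH s t hst n x).symm⟩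
  have h3 : finrank k (LinearMap.range (S.rH s n)) = finrank k (LinearMap.range (S.rH t n)) := by
    rw [h2]
    exact (LinearEquiv.finrank_eq (Submodule.equivMapOfInjective _ hb.1 _)).symm
  rw [h1, h3]

/-- inequality and equality case at one level -/
theorem star {t : ℝ} (ht : 0 < t) (ht' : t ∉ crit) (hp : 0 < p) (hpt : t / p ∉ crit) :
    Rinf k (S.rH (t / p)) 0 ≤ Rinf k (S.rH t) 0 ∧
      (Rinf k (S.rH t) 0 ≤ Rinf k (S.rH (t / p)) 0 → S.Tight t) := by
  have hp' : (0 : ℝ) < p := by exact_mod_cast hp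
  have i1 := S.finH t ht ht'
  have i2 := fin_F (S.G t)
  have i3 := S.finH (t / p) (div_pos ht hp') hpt
  have h := propT12 k S.Hi S.Fi (S.H t) (S.F t) (S.H (t / p)) S.ui S.πi (S.G t) (S.L t ht ht')
    (S.rH t) (S.rF t) (S.rH (t / p)) (S.rF_u t) (S.π_rF t) (S.glob t ht ht') (S.topH t ht ht')
    (S.topH (t / p) (div_pos ht hp') hpt) 0 (by norm_num) S.lift
  refine ⟨h.1, fun hR => ?_⟩
  refine ⟨ht, ht', fun e he x hx => (h.2 hR).1 e (by omega) x hx, ?_⟩
  exact tx S.ui S.πi (S.G t) (S.L t ht ht') (S.rH t) (S.rF t) (S.rH (t / p)) (S.rF_u t)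
    (S.π_rF t) (S.glob t ht ht') (S.topH t ht ht') (S.topH (t / p) (div_pos ht hp') hpt)
    S.lift hR

/-- `e`-stability on the blown up intervals -/
theorem stab_all (hp : 0 < p) (hpc : ∀ x : ℝ, x / p ∈ crit → x ∈ crit)
    (hpc' : ∀ a ∈ crit, (p : ℝ) * a ∈ crit) {α β : ℝ}
    (h0 : ∀ x ∈ Ioo α β, x ∉ crit)
    (hT : ∀ j : ℕ, 1 ≤ j → ∀ x ∈ Ioo ((p : ℝ) ^ j * α) ((p : ℝ) ^ j * β), x ∉ crit → S.Tight x)
    (j : ℕ) : ∀ s t (h : Adm crit s t), s ∈ Ioo ((p : ℝ) ^ j * α) ((p : ℝ) ^ j * β) →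
      t ∈ Ioo ((p : ℝ) ^ j * α) ((p : ℝ) ^ j * β) → S.StabO h ∧ S.StabE h := by
  have hp0 : (0 : ℝ) < p := by exact_mod_cast hp
  induction j with
  | zero =>
    intro s t h hs ht
    rw [pow_zero, one_mul, one_mul] at hs ht
    apply stab_base h
    intro n
    exact (S.reg s t h.le h.pos (fun x hx => h0 x ⟨hs.1.trans_le hx.1, hx.2.trans_lt ht.2⟩) n).1
  | succ j ih =>
    intro s t h hs ht
    have hdiv : ∀ x ∈ Ioo ((p : ℝ) ^ (j + 1) * α) ((p : ℝ) ^ (j + 1) * β),
        x / p ∈ Ioo ((p : ℝ) ^ j * α) ((p : ℝ) ^ j * β) := by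
      intro x hx
      constructor
      · rw [lt_div_iff₀ hp0]
        have := hx.1
        rw [pow_succ] at this
        linarith
      · rw [div_lt_iff₀ hp0]
        have := hx.2
        rw [pow_succ] at this
        linarith
    have h' : Adm crit (s / p) (t / p) := by
      refine ⟨div_pos h.pos hp0, ?_, fun hc => h.hs (hpc _ hc), fun hc => h.ht (hpc _ hc), ?_⟩
      · have := h.le
        gcongr
      · intro x hx y hy
        have hx' : (p : ℝ) * x ∈ crit ∩ Ioo s t := by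
          refine ⟨hpc' x hx.1, ?_, ?_⟩
          · have := hx.2.1
            rw [div_lt_iff₀ hp0] at this
            linarith
          · have := hx.2.2
            rw [lt_div_iff₀ hp0] at this
            linarith
        have hy' : (p : ℝ) * y ∈ crit ∩ Ioo s t := by
          refine ⟨hpc' y hy.1, ?_, ?_⟩
          · have := hy.2.1
            rw [div_lt_iff₀ hp0] at this
            linarith
          · have := hy.2.2
            rw [lt_div_iff₀ hp0] at this
            linarith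
        have := h.one hx' hy'
        exact mul_left_cancel₀ hp0.ne' this
    obtain ⟨ho, he⟩ := ih (s / p) (t / p) h' (hdiv s hs) (hdiv t ht)
    exact stab_step h h' (hT (j + 1) (by omega) s hs h.hs) (hT (j + 1) (by omega) t ht h.ht) ho he

/-- the final count: on a long tight interval -/
theorem count (hf : ∀ t, (crit ∩ Iic t).Finite) {a b : ℝ} (ha : 0 < a) (haB : B0 ≤ a)
    (hab : a + 1 + (K + 2) * (|B1| + 2) < b)
    (hst : ∀ s t (h : Adm crit s t), s ∈ Ioo a b → t ∈ Ioo a b → S.StabO h ∧ S.StabE h) :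
    False := by
  classical
  have hB1 : 0 ≤ |B1| := abs_nonneg _
  have hB1' : B1 ≤ |B1| := le_abs_self _
  have hK0 : (0 : ℝ) ≤ K := Nat.cast_nonneg _
  have hpos : 0 < (K + 2 : ℝ) * (|B1| + 2) := by positivity
  -- the lower end
  obtain ⟨s, hs, hs'⟩ := exists_reg hf (show a < a + 1 by linarith)
  have hs0 : 0 < s := ha.trans hs.1
  have hsb : s ∈ Ioo a b := ⟨hs.1, by linarith [hs.2]⟩
  -- dead classes
  let D : ℕ → Prop := fun i => ∀ i' ≥ i, S.rH s (S.f i') (S.y i') = 0
  have hD : ∃ i, D i := by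
    obtain ⟨N, hN⟩ := S.topH s hs0 hs'
    refine ⟨N, fun i' hi' => ?_⟩
    have h1 : N ≤ S.f i' := hi'.trans S.f_mono.le_apply
    have := hN _ h1
    exact Subsingleton.elim _ _
  obtain ⟨i1, hi1, hmin⟩ : ∃ i, D i ∧ ∀ j < i, ¬ D j :=
    ⟨Nat.find hD, Nat.find_spec hD, fun j hj => Nat.find_min hD hj⟩
  have hi1pos : 0 < i1 := by
    by_contra h0
    have h1 : i1 = 0 := by omega
    rw [h1] at hi1
    exact S.birth0 s (by linarith [hs.1]) hs0 hs' (hi1 0 le_rfl)
  have halive : S.rH s (S.f (i1 - 1)) (S.y (i1 - 1)) ≠ 0 := by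
    intro h0
    apply hmin (i1 - 1) (by omega)
    intro i' hi'
    rcases hi'.lt_or_eq with h | h
    · exact hi1 i' (by omega)
    · rw [← h]
      exact h0
  -- births
  have hbirth : ∀ r : ℕ, ∀ t, t ∉ crit → s + (r + 1) * (|B1| + 2) ≤ t →
      S.rH t (S.f (i1 + r)) (S.y (i1 + r)) ≠ 0 := by
    intro r
    induction r with
    | zero =>
      intro t ht' hst'
      have h1 := S.birth (i1 - 1) s t hs0 hs' ht' (by
        push_cast at hst'
        linarith) halive
      rw [Nat.sub_add_cancel hi1pos] at h1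
      exact h1
    | succ r ih =>
      intro t ht' hst'
      push_cast at hst'
      obtain ⟨x, hx, hx'⟩ := exists_reg hf
        (show s + (r + 1) * (|B1| + 2) < s + (r + 1) * (|B1| + 2) + 1 by linarith)
      have hr0 : (0 : ℝ) ≤ r := Nat.cast_nonneg _
      have hx0 : 0 < x := by
        have : 0 < ((r : ℝ) + 1) * (|B1| + 2) := by positivity
        linarith [hx.1]
      exact S.birth (i1 + r) x t hx0 hx' ht' (by linarith [hx.2]) (ih x hx' hx.1.le)
  -- the upper end
  obtain ⟨t, ht, ht'⟩ := exists_reg hf (show a + 1 + (K + 2) * (|B1| + 2) < b from hab)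
  have ht0 : 0 < t := by linarith [ht.1]
  have htb : t ∈ Ioo a b := ⟨by linarith [ht.1], ht.2⟩
  have hst0 : s < t := by linarith [ht.1, hs.2]
  -- all these classes are norms at the level `t`
  have hnorm : ∀ r : ℕ, ∃ ω : S.H t (S.f (i1 + r)),
      ω + S.θ t (S.f (i1 + r)) ω = S.rH t (S.f (i1 + r)) (S.y (i1 + r)) := by
    intro r
    refine chain_imp hf (fun t => ∃ ω : S.H t (S.f (i1 + r)),
      ω + S.θ t (S.f (i1 + r)) ω = S.rH t (S.f (i1 + r)) (S.y (i1 + r))) ?_ s t hsb htb hst0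
      hs' ht' ?_
    · intro s' t' hs1 ht1 hst1 hs2 ht2 hone hP
      have hadm : Adm crit s' t' := ⟨ha.trans hs1.1, hst1.le, hs2, ht2, hone⟩
      obtain ⟨ho, he⟩ := hst s' t' hadm hs1 ht1
      exact main_step hadm ho he (i1 + r) hP
    · refine ⟨0, ?_⟩
      rw [map_zero, add_zero, hi1 (i1 + r) (by omega)]
  -- the count
  have hbig : ∀ r ∈ Finset.range (K + 1), 1 ≤ finrank k (S.H t (S.f (i1 + r))) -
      finrank k (LinearMap.range (S.rH t (S.f (i1 + r)))) := by
    intro r hr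
    rw [Finset.mem_range] at hr
    have i1' := S.finH t ht0 ht' (S.f (i1 + r))
    have halive' : S.rH t (S.f (i1 + r)) (S.y (i1 + r)) ≠ 0 := by
      apply hbirth r t ht'
      have h1 : ((r : ℝ) + 1) ≤ K + 1 := by
        have : r + 1 ≤ K + 1 := by omega
        exact_mod_cast this
      have h2 : ((r : ℝ) + 1) * (|B1| + 2) ≤ (K + 1) * (|B1| + 2) :=
        mul_le_mul_of_nonneg_right h1 (by linarith)
      have h3 : ((K : ℝ) + 2) * (|B1| + 2) = (K + 1) * (|B1| + 2) + (|B1| + 2) := by ring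
      linarith [ht.1, hs.2]
    by_contra hcon
    have h1 := Submodule.finrank_le (LinearMap.range (S.rH t (S.f (i1 + r))))
    have h2 : finrank k (LinearMap.range (S.rH t (S.f (i1 + r)))) =
        finrank k (S.H t (S.f (i1 + r))) := by omega
    have h3 := Submodule.eq_top_of_finrank_eq h2
    obtain ⟨ω, hω⟩ := hnorm r
    have h4 : ω ∈ LinearMap.range (S.rH t (S.f (i1 + r))) := by
      rw [h3]
      exact Submodule.mem_top
    obtain ⟨x, rfl⟩ := h4
    rw [S.θ_r, add_self_eq S.two] at hω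
    exact halive' hω.symm
  -- sum over the degrees
  let A : Finset ℕ := (Finset.range (K + 1)).image fun r => S.f (i1 + r)
  have hinj : Set.InjOn (fun r => S.f (i1 + r)) (Finset.range (K + 1) : Set ℕ) := by
    intro x _ y _ hxy
    have := S.f_mono.injective hxy
    omega
  have hcard : A.card = K + 1 := by
    rw [Finset.card_image_of_injOn hinj, Finset.card_range]
  obtain ⟨m, hm⟩ : ∃ m, ∀ i ∈ A, i < m := by
    obtain ⟨m, hm⟩ := A.bddAbove
    exact ⟨m + 1, fun i hi => Nat.lt_succ_of_le (hm hi)⟩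
  have h1 : K + 1 ≤ ∑ n ∈ Finset.range m,
      (finrank k (S.H t n) - finrank k (LinearMap.range (S.rH t n))) := by
    calc K + 1 = ∑ _n ∈ A, 1 := by rw [Finset.sum_const, hcard, smul_eq_mul, mul_one]
      _ ≤ ∑ n ∈ A, (finrank k (S.H t n) - finrank k (LinearMap.range (S.rH t n))) := by
        apply Finset.sum_le_sum
        intro n hn
        obtain ⟨r, hr, rfl⟩ := Finset.mem_image.1 hn
        exact hbig r hr
      _ ≤ _ := by
        apply Finset.sum_le_sum_of_subset
        intro n hn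
        exact Finset.mem_range.2 (hm n hn)
  have h2 := S.bars t ht0 ht' m
  omega

end T2Sys

open Filter Topology in
/-- **The goal.** -/
theorem t2Goal : T2Goal := by
  intro ι _ ℓ hℓ k _ p hp2 K B0 B1 S
  classical
  have := Fintype.ofFinite ι
  have hp0 : (0 : ℝ) < p := by
    have : 0 < p := by omega
    exact_mod_cast this
  have hp1 : (1 : ℝ) < p := by
    have : 1 < p := by omega
    exact_mod_cast this
  have hf := crit_finite ℓ hℓ
  have hpc' : ∀ a ∈ Crit ℓ, (p : ℝ) * a ∈ Crit ℓ := fun a ha =>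
    AS.mul_mem_crit (by omega) ha
  have hpc : ∀ x : ℝ, x / p ∈ Crit ℓ → x ∈ Crit ℓ := by
    intro x hx
    have := hpc' _ hx
    rwa [mul_div_cancel₀ x hp0.ne'] at this
  let N : ℝ → ℕ := fun t => Rinf k (S.rH t) 0
  -- maximal value
  let P : ℕ → Prop := fun n => ∃ s : ℝ, 0 < s ∧ s ∉ Crit ℓ ∧ N s = n
  have hPbdd : ∀ n, P n → n ≤ K := by
    rintro n ⟨s, hs0, hs, rfl⟩
    exact T2Sys.rinf_le hs0 hs
  obtain ⟨s₁, hs₁, hs₁'⟩ := exists_reg hf (show (1 : ℝ) < 2 by norm_num)
  have hPne : P (N s₁) := ⟨s₁, by linarith [hs₁.1], hs₁', rfl⟩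
  obtain ⟨Nmax, hNmax, hmax⟩ : ∃ n, P n ∧ ∀ m, P m → m ≤ n :=
    ⟨Nat.findGreatest P K, Nat.findGreatest_spec (hPbdd _ hPne) hPne,
      fun m hm => Nat.le_findGreatest (hPbdd m hm) hm⟩
  obtain ⟨s₀, hs₀0, hs₀, hNs₀⟩ := hNmax
  have hle : ∀ s : ℝ, 0 < s → s ∉ Crit ℓ → N s ≤ Nmax := fun s h0 h => hmax _ ⟨s, h0, h, rfl⟩
  -- a critical-free neighbourhood
  obtain ⟨e, he, hball⟩ := Metric.eventually_nhds_iff.mp
    ((AS.eventually_not_crit ℓ hℓ hs₀0 hs₀).and (lt_mem_nhds hs₀0))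
  set t := s₀ - e / 2 with ht
  have htin : ∀ x ∈ Icc t (t + e / 2 + e / 4), x ∉ Crit ℓ ∧ 0 < x := by
    intro x hx
    have h1 : dist x s₀ < e := by
      rw [Real.dist_eq, abs_lt]
      constructor
      · have := hx.1; rw [ht] at this; linarith
      · have := hx.2; rw [ht] at this; linarith
    exact hball h1
  have ht0 : 0 < t := (htin t ⟨le_refl _, by linarith⟩).2
  have hNt : ∀ x ∈ Ioo t (t + e / 2), N x = Nmax := by
    intro x hx
    have h1 : x ≤ s₀ := by have := hx.2; rw [ht] at this; linarith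
    rw [← hNs₀]
    apply T2Sys.rinf_const (by linarith [hx.1]) h1
    intro y hy
    apply (htin y ⟨by linarith [hx.1, hy.1], ?_⟩).1
    have := hy.2
    rw [ht]; linarith
  have hdivc : ∀ x : ℝ, x ∉ Crit ℓ → x / p ∉ Crit ℓ := fun x hx h => hx (hpc x h)
  -- blow up
  have hpow : ∀ j : ℕ, ∀ x ∈ Ioo ((p : ℝ) ^ j * t) ((p : ℝ) ^ j * (t + e / 2)),
      x ∉ Crit ℓ → N x = Nmax := by
    intro j
    induction j with
    | zero => intro x hx _; exact hNt x (by simpa using hx)
    | succ j ih =>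
      intro x hx hxc
      have hx0 : 0 < x := lt_trans (by positivity) hx.1
      have hxp : x / p ∉ Crit ℓ := hdivc x hxc
      have h1 : N (x / p) = Nmax := by
        apply ih _ _ hxp
        constructor
        · rw [lt_div_iff₀ hp0]
          have := hx.1
          rw [pow_succ] at this
          linarith
        · rw [div_lt_iff₀ hp0]
          have := hx.2
          rw [pow_succ] at this
          linarith
      have h2 : N (x / p) ≤ N x := (T2Sys.star (S := S) hx0 hxc (by omega) hxp).1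
      rw [h1] at h2
      exact le_antisymm (hle x hx0 hxc) h2
  have hT : ∀ j : ℕ, 1 ≤ j → ∀ x ∈ Ioo ((p : ℝ) ^ j * t) ((p : ℝ) ^ j * (t + e / 2)),
      x ∉ Crit ℓ → S.Tight x := by
    intro j hj x hx hxc
    obtain ⟨j, rfl⟩ : ∃ i, j = i + 1 := ⟨j - 1, by omega⟩
    have hx0 : 0 < x := lt_trans (by positivity) hx.1
    have hxp : x / p ∉ Crit ℓ := hdivc x hxc
    apply (T2Sys.star (S := S) hx0 hxc (by omega) hxp).2
    have h1 : N (x / p) = Nmax := by
      apply hpow j _ _ hxp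
      constructor
      · rw [lt_div_iff₀ hp0]
        have := hx.1
        rw [pow_succ] at this
        linarith
      · rw [div_lt_iff₀ hp0]
        have := hx.2
        rw [pow_succ] at this
        linarith
    have h2 : N x = Nmax := hpow (j + 1) x hx hxc
    exact (h2.trans h1.symm).le
  -- a long interval
  set C : ℝ := 1 + (K + 2) * (|B1| + 2) with hC
  obtain ⟨j, hj⟩ : ∃ j : ℕ, C / (e / 2) + |B0| / t < (p : ℝ) ^ j := pow_unbounded_of_one_lt _ hp1
  have hC0 : 0 < C := by positivity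
  have he2 : 0 < e / 2 := by linarith
  have h1 : C < (p : ℝ) ^ j * (e / 2) := by
    have h2 : C / (e / 2) < (p : ℝ) ^ j := by
      have : 0 ≤ |B0| / t := by positivity
      linarith
    rwa [div_lt_iff₀ he2] at h2
  have h2 : B0 ≤ (p : ℝ) ^ j * t := by
    have h3 : |B0| / t < (p : ℝ) ^ j := by
      have : 0 ≤ C / (e / 2) := by positivity
      linarith
    rw [div_lt_iff₀ ht0] at h3
    exact (le_abs_self B0).trans h3.le
  have hmono : (p : ℝ) ^ j ≤ (p : ℝ) ^ (j + 1) := pow_le_pow_right₀ hp1.le (by omega)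
  have hpj : (0 : ℝ) < (p : ℝ) ^ (j + 1) := by positivity
  refine T2Sys.count (S := S) hf (a := (p : ℝ) ^ (j + 1) * t)
    (b := (p : ℝ) ^ (j + 1) * (t + e / 2)) (by positivity) ?_ ?_ ?_
  · exact h2.trans (mul_le_mul_of_nonneg_right hmono ht0.le)
  · have h3 : (p : ℝ) ^ j * (e / 2) ≤ (p : ℝ) ^ (j + 1) * (e / 2) :=
      mul_le_mul_of_nonneg_right hmono he2.le
    have h4 : (p : ℝ) ^ (j + 1) * (t + e / 2) =
        (p : ℝ) ^ (j + 1) * t + (p : ℝ) ^ (j + 1) * (e / 2) := by ring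
    rw [h4]
    linarith
  · exact T2Sys.stab_all (by omega) hpc hpc' (fun x hx => (htin x
      ⟨hx.1.le, by linarith [hx.2]⟩).1) hT (j + 1)

end Vale.Agent.P216.H994
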