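import Vale.Agent.P216.H994.EtaNeK
import Vale.Agent.P216.H971.FibPF
import Vale.Agent.P216.H934D.BaseLow

/-!
# P216-D, [ETANE], unconditional
-/

open Set BoundedContinuousFunction

namespace Vale.Agent.P216.H994

open Vale.Agent.P216.Sl Vale.Agent.P216.PS Vale.Agent.P216.H977C

variable {M : Type} [MetricSpace M] [CompactSpace M] [SimplyConnectedSpace M] {ρ : ℝ}

/-- The fibre data of the path fibrations. -/
theorem exists_fibPF (hρ : 0 < ρ) (hU : LS.UniqSeg M ρ) : ∃ c, FibPF M c := by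
  obtain ⟨x₀⟩ := (inferInstance : Nonempty M)
  obtain ⟨c, r0, H⟩ := H971.Low.exists_fibPF hρ hU x₀
  refine ⟨c, fun b => ?_⟩
  obtain ⟨φ, ψ, U, -⟩ := H b
  exact ⟨x₀, r0, φ, ψ, U⟩

/-- **[ETANE]** from LOW. -/
theorem etaNeK_of_low {Kf : Fld} (hρ : 0 < ρ) (hU : LS.UniqSeg M ρ) {B0 : ℝ} {d : ℕ} (hd : 2 ≤ d)
    (hB0 : 0 ≤ B0) (hL : LowK Kf M (d - 1) B0) : D337.EtaNeK Kf M d := by
  obtain ⟨c, hF⟩ := exists_fibPF hρ hU
  exact etaNeK_sc hρ hU hd hF hB0 hL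

/-- **[ETANE]** from the cohomology of the base. -/
theorem etaNeK_of_base {Kf : Fld} (hρ : 0 < ρ) (hU : LS.UniqSeg M ρ) {d h : ℕ} (hd : 2 ≤ d)
    (hh : 1 ≤ h) (hb : ∀ (k : Type) [Field k], Kf k → Nonempty (H934D.BaseK k M d h)) :
    D337.EtaNeK Kf M d := by
  obtain ⟨B0, hB0, hL⟩ := H934D.lowK_of_base Kf hρ hU (by omega) hh hb
  exact etaNeK_of_low hρ hU hd hB0 hL

end Vale.Agent.P216.H994
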