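import Vale.Agent.P216.H994.Trg
import Vale.Agent.P216.H892.FibU
import Vale.Agent.P216.N929.Om

/-!
# P216-D, [ETANE]: a class whose coboundary is a non-exact cocycle of the base is not exact on the
fibres

* `exL_base`: `dl η = s * ξ ∘ π`, `η` exact on all fibres, the fibre cohomology of the degrees
  `≤ d - 2` dies: then `ξ` is exact on the base.
-/

set_option linter.all false

open Set

namespace Vale.Agent.P216.H994

open Sl PS E2L D907 H892
open N929 (one1 nrm_one1 coc_one1)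

section Base

variable {k : Type} [Field k] {M E : Type} [PseudoMetricSpace M] [PseudoMetricSpace E]

theorem nrm_const' {α : Type} {f : List α → k} (hf : Nrm f) {l : List α} {p : α}
    (hl : 2 ≤ l.length) (h : ∀ x ∈ l, x = p) : f l = 0 := by
  obtain ⟨x, y, l, rfl⟩ : ∃ x y l', l = x :: y :: l' := by
    rcases l with _ | ⟨x, _ | ⟨y, l⟩⟩
    · simp at hl
    · simp at hl
    · exact ⟨x, y, l, rfl⟩
  rw [h x (by simp), h y (by simp)]
  exact hf.dup _ _

/-- The local cocycle `v x = η - s * ξ (x :: π ·)`. -/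
def vx (π : E → M) (s : k) (ξ : List M → k) (η : List E → k) (x : M) (ws : List E) : k :=
  η ws - s * ξ (x :: ws.map π)

theorem dl_vx {π : E → M} (hπ : ∀ w w', dist (π w) (π w') ≤ dist w w') {A : Set M} {X : Set E}
    {d : ℕ} {s : k} {ξ : List M → k} {ε₁ : ℝ}
    (hξ : ∀ l, l.length = d + 2 → SmL (univ : Set M) ε₁ l → dl ξ l = 0) {η : List E → k} {ε₂ : ℝ}
    (hη : ∀ ws, ws.length = d + 1 → SmL X ε₂ ws → dl η ws = s * ξ (ws.map π)) {r : ℝ}
    (h1 : r ≤ ε₁) (h2 : r ≤ ε₂) {x : M} {ws : List E} (hw : ws.length = d + 1)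
    (hD : Dom π A X r [x] ws) : dl (vx π s ξ η x) ws = 0 := by
  have e1 : dl ξ (x :: ws.map π) = 0 := by
    refine hξ _ (by rw [List.length_cons, List.length_map, hw]) ⟨fun _ _ => mem_univ _, ?_⟩
    intro y hy z hz
    rw [List.mem_cons] at hy hz
    rcases hy with rfl | hy <;> rcases hz with rfl | hz
    · exact (hD.1.2 _ (by simp) _ (by simp)).trans_le h1
    · obtain ⟨w, hw', rfl⟩ := List.mem_map.1 hz
      exact (hD.2.2 _ (by simp) w hw').trans_le h1
    · obtain ⟨w, hw', rfl⟩ := List.mem_map.1 hy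
      rw [dist_comm]
      exact (hD.2.2 _ (by simp) w hw').trans_le h1
    · obtain ⟨w, hw', rfl⟩ := List.mem_map.1 hy
      obtain ⟨w', hw'', rfl⟩ := List.mem_map.1 hz
      exact (hπ w w').trans_lt ((hD.2.1.2 w hw' w' hw'').trans_le h1)
  have e2 := hη ws hw (hD.2.1.mono subset_rfl h2)
  have e3 : dl (vx π s ξ η x) ws = dl η ws - s * dl (fun l => ξ (x :: l)) (ws.map π) := by
    have : vx π s ξ η x = fun ws => η ws - s * (fun l => ξ (x :: l)) (ws.map π) := rfl
    rw [this, dl_sub, dl_mul_left, dl_map (fun l => ξ (x :: l)) π]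
  rw [dl_cons] at e1
  rw [e3, e2, ← sub_eq_zero.1 e1, sub_self]

/-- **[ETANE], general form.** -/
theorem exL_base {π : E → M} (hπ : ∀ w w', dist (π w) (π w') ≤ dist w w') {A : Set M}
    {X : ℕ → Set E} {X₀ : Set E} {d : ℕ} (hd : 2 ≤ d) (hXm : ∀ j, X (j + 1) ⊆ X j)
    (hnull : ∀ j, j + 2 ≤ d → NullB π A (X j) (X (j + 1)) k (d - 2 - j))
    (hne : ∀ x ∈ A, ∃ w ∈ X (d - 1), π w = x)
    (hfs : ∀ r > 0, ∃ r' > 0, ∀ x ∈ A, ∀ f : List E → k,
      (∀ ws, ws.length = d - 1 + 2 → Dom π A X₀ r [x] ws → dl f ws = 0) →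
      ExL {w | w ∈ X₀ ∧ π w = x} (d - 1) f →
      ∃ g : List E → k, ∀ ws, ws.length = d - 1 + 1 → Dom π A (X 0) r' [x] ws → f ws = dl g ws)
    {s : k} (hs : s ≠ 0) {ξ : List M → k} (nξ : Nrm ξ)
    (cξ : ∃ ε > 0, ∀ l, l.length = d + 2 → SmL (univ : Set M) ε l → dl ξ l = 0)
    {η : List E → k} (hη : ∃ ε > 0, ∀ ws, ws.length = d + 1 → SmL X₀ ε ws →
      dl η ws = s * ξ (ws.map π))
    (hex : ∀ x ∈ A, ExL {w | w ∈ X₀ ∧ π w = x} (d - 1) η) : ExL A d ξ := by
  obtain ⟨ε₁, hε₁, hξ⟩ := cξ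
  obtain ⟨ε₂, hε₂, hη⟩ := hη
  obtain ⟨r', hr', h⟩ := hfs (min ε₁ ε₂) (lt_min hε₁ hε₂)
  have key : ∀ x : M, ∃ g : List E → k, x ∈ A → ∀ ws, ws.length = d →
      Dom π A (X 0) r' [x] ws → vx π s ξ η x ws = dl g ws := by
    intro x
    by_cases hx : x ∈ A
    · have hE : ExL {w | w ∈ X₀ ∧ π w = x} (d - 1) (vx π s ξ η x) := by
        obtain ⟨g, hg0, ε, hε, hg⟩ := hex x hx
        refine ⟨g, hg0, ε, hε, fun l hl hs => ?_⟩
        have e : ξ (x :: l.map π) = 0 := by
          refine nrm_const' nξ (p := x) (by simp; omega) fun y hy => ?_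
          rw [List.mem_cons] at hy
          rcases hy with rfl | hy
          · rfl
          · obtain ⟨w, hw, rfl⟩ := List.mem_map.1 hy
            exact (hs.1 w hw).2
        rw [← hg l hl hs, vx, e, mul_zero, sub_zero]
      obtain ⟨g, hg⟩ := h x hx (vx π s ξ η x) (fun ws hw hD => dl_vx hπ hξ hη (min_le_left _ _)
        (min_le_right _ _) (by omega) hD) hE
      exact ⟨g, fun _ ws hw hD => hg ws (by omega) hD⟩
    · exact ⟨fun _ => 0, fun h => absurd h hx⟩
  choose g hg using key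
  set Y : Bi k M E := fun xs ws => match xs with
    | [] => 0
    | [x] => -g x ws
    | _ :: _ :: _ => 0 with hYdef
  have nY : NrmM Y := by
    intro ws xs hx
    rcases xs with _ | ⟨x, _ | ⟨y, l⟩⟩
    · rfl
    · exact absurd (List.isChain_singleton x) hx
    · rfl
  have hc1 : CocL A 0 (one1 k M) := ⟨1, one_pos, fun l hl hs => coc_one1 A 1 l hl hs⟩
  have h1 := trg (k := k) hπ (a := 0) (d := d) (by omega) hXm hnull hne hs nξ ⟨ε₁, hε₁, hξ⟩
    (c := one1 k M) nrm_one1 hc1 (η := η) (F := 0) (Y := Y)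
    (by rw [map_zero]; exact zero_mem _) nY ?_
  · obtain ⟨β, hβ0, ε, hε, hβ⟩ := h1
    refine ⟨β, fun h => by omega, ε, hε, fun l hl hs => ?_⟩
    have e1 : one1 k M (l.drop d) = 1 := if_pos (by rw [List.length_drop]; omega)
    rw [← hβ l (by omega) hs]
    show ξ l = ξ (l.take (d + 1)) * one1 k M (l.drop d)
    rw [e1, mul_one, List.take_of_length_le (by omega)]
  · refine ⟨r', hr', fun xs ws hx hw hD => ?_⟩
    obtain ⟨x, rfl⟩ := List.length_eq_one_iff.1 hx
    have hxA : x ∈ A := hD.1.1 x (by simp)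
    have e1 := hg x hxA ws hw hD
    have e2 : dl (fun ws => Y [x] ws) ws = -dl (g x) ws := by
      have : (fun ws => Y [x] ws) = fun ws => (-1) * g x ws := by
        funext ws
        show -g x ws = _
        ring
      rw [this, dl_mul_left]
      ring
    show 0 - one1 k M [x] * (η ws - s * ξ (x :: ws.map π)) - dl (fun ws => Y [x] ws) ws = 0
    have e3 : one1 k M [x] = 1 := if_pos rfl
    rw [e2, ← e1, e3, vx]
    ring

end Base

end Vale.Agent.P216.H994
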