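import Vale.Agent.P216.H994.LowZ
import Vale.Agent.P216.H971.LowGeo

/-!
# P216-B7, Z10: `ZSys` from the fibre data
-/

set_option linter.all false

open Set

namespace Vale.Agent.P216.H994

open Sl PS E2L D907 H892

variable {k : Type} [Field k] {M E E' : Type} [PseudoMetricSpace M] [PseudoMetricSpace E]
  [PseudoMetricSpace E'] {π : E → M} {A : Set M} {X X' : Set E} {O1 O2 O3 : Set E'}
  {φ : M → E → E'} {ψ : M → E' → E} {q : ℕ}

theorem famV_mono {A' : Set M} {V : M → List E → k} (h : FamV π A X q V) (hA : A' ⊆ A) :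
    FamV π A' X q V := by
  obtain ⟨r, hr, h1⟩ := h.coc
  obtain ⟨g, r', hr', h2⟩ := h.comp
  exact ⟨⟨r, hr, fun x ws h3 h4 => h1 x ws h3 ⟨h4.1.mono hA le_rfl, h4.2⟩⟩,
    ⟨g, r', hr', fun x y ws h3 h4 => h2 x y ws h3 ⟨h4.1.mono hA le_rfl, h4.2⟩⟩⟩


/-- The family of a cocycle of the model fibre. -/
theorem famV_of (S : FibN π A X X' O1 O2 φ ψ) (C : FibC π A X' O1 φ) {v0 : List E' → k}
    (hv : CocL O1 q v0) : FamV π A X' q fun x l => v0 (l.map (φ x)) := by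
  obtain ⟨ε₀, hε₀, h0⟩ := hv
  refine ⟨?_, ?_⟩
  · -- closed
    obtain ⟨δ, hδ, h⟩ := S.φ_mod ε₀ hε₀
    refine ⟨δ, hδ, fun x ws hw hD => ?_⟩
    have hxA : x ∈ A := hD.1.1 x (by simp)
    rw [dl_map]
    exact h0 _ (by rw [List.length_map]; exact hw)
      ((SmL.map' (Dom.nbh hD) fun w hw => h x hxA w hw).mono S.h21 le_rfl)
  · -- compatible
    obtain ⟨δ, hδ, h⟩ := C ε₀ hε₀
    have key : ∀ x y : M, ∃ g : List E → k, ∀ ws, ws.length = q + 1 →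
        Dom π A X' δ [x, y] ws → v0 (ws.map (φ y)) - v0 (ws.map (φ x)) = dl g ws := by
      intro x y
      by_cases hc : x ∈ A ∧ y ∈ A ∧ dist x y < δ
      · obtain ⟨g, -, hg⟩ := ctg_chain (f := v0) (n := q) h0 (h x hc.1 y hc.2.1 hc.2.2)
        refine ⟨g, fun ws hw hD => hg ws hw ⟨fun w hw => ⟨⟨hD.2.1.1 w hw, ?_⟩,
          ⟨hD.2.1.1 w hw, ?_⟩⟩, hD.2.1.2⟩⟩
        · exact hD.2.2 x (by simp) w hw
        · exact hD.2.2 y (by simp) w hw
      · exact ⟨fun _ => 0, fun ws hw hD => absurd ⟨hD.1.1 x (by simp), hD.1.1 y (by simp),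
          hD.1.2 x (by simp) y (by simp)⟩ hc⟩
    choose g hg using key
    exact ⟨g, δ, hδ, hg⟩

/-- Over the base point. -/
theorem exL_base_pt {x₀ : M} {ι : E' → E} (hq : 1 ≤ q)
    (hx : ∀ r > 0, ∃ δ > 0, CtgC O1 O3 δ r id (fun v => φ x₀ (ι v))) {v0 : List E' → k}
    (hv : CocL O1 q v0) :
    ExL O3 q fun l => (fun x l => v0 (l.map (φ x))) x₀ (l.map ι) - v0 l := by
  obtain ⟨ε₀, hε₀, h0⟩ := hv
  obtain ⟨δ, hδ, h⟩ := hx ε₀ hε₀
  obtain ⟨g, -, hg⟩ := ctg_chain (f := v0) (n := q) h0 h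
  refine ⟨g, fun h => by omega, δ, hδ, fun l hl hs => ?_⟩
  rw [← hg l hl hs, List.map_id]
  show v0 ((l.map ι).map (φ x₀)) - v0 l = _
  rw [List.map_map]
  rfl

theorem coc0_const {T : Set E'} {F : List E' → k} (hF : CocL T 0 F)
    (hj : ∀ v ∈ O2, ∀ v' ∈ O2, JoinedIn T v v') : ∃ a : k, ∀ v ∈ O2, F [v] = a := by
  by_cases hn : O2.Nonempty
  · obtain ⟨v₀, hv₀⟩ := hn
    exact ⟨F [v₀], fun v hv => H971.Low.coc0_joined hF (hj v hv v₀ hv₀)⟩
  · exact ⟨0, fun v hv => (hn ⟨v, hv⟩).elim⟩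

/-- **`ZSys` from the fibre data.** -/
theorem zSys_of {A : ℝ → Set M} {X : ℝ → Set E} {O : ℝ → Set E'} {x₀ : M} {ι : E' → E}
    (monoA : Monotone A) (monoX : Monotone X) (monoO : Monotone O)
    (lip : ∀ w w', dist (π w) (π w') ≤ dist w w')
    (ι_lip : ∀ v v', dist (ι v) (ι v') ≤ dist v v')
    (ι_mem : ∀ t, ∀ v ∈ O t, ι v ∈ X t ∧ π (ι v) = x₀)
    (ne : ∀ R, ∃ t, ∀ x ∈ A R, ∃ w ∈ X t, π w = x)
    (reach : ∀ t, ∃ R, ∀ w ∈ X t, π w ∈ A R)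
    (cone : ∀ t, ∃ T, t ≤ T ∧ ∀ q, 1 ≤ q → ∀ F : List E → k, CocL (X T) q F → ExL (X t) q F)
    (hO : ∀ t, IsCompact (O t)) (hx₀ : ∃ R, x₀ ∈ A R)
    (conn : ∀ t, ∃ T, t ≤ T ∧ ∀ v ∈ O t, ∀ v' ∈ O t, JoinedIn (O T) v v')
    (fn : ∀ R, ∃ C : ℝ, 0 ≤ C ∧ ∃ (φ : M → ℝ → E → E') (ψ : M → ℝ → E' → E), ∀ t > 0,
      (∀ T, t + C ≤ T → FibN π (A R) (X (T + C)) (X t) (O T) (O (t + C)) (fun x => φ x t)
        fun x => ψ x T) ∧
      FibC π (A R) (X t) (O (t + C)) (fun x => φ x t) ∧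
      (x₀ ∈ A R → ∀ r > 0, ∃ δ > 0, CtgC (O (t + C)) (O t) δ r id (fun v => φ x₀ t (ι v)))) :
    ZSys k π A X O x₀ ι := by
  refine ⟨monoA, monoX, monoO, lip, ι_lip, ι_mem, ne, reach, cone, fun R t => ?_,
    fun q hq hlow R t => ?_, fun R t q hq => ?_, fun R t q => ?_⟩
  · obtain ⟨C, hC, φ, ψ, h⟩ := fn R
    have h0 : 0 < max t 1 := lt_max_of_lt_right one_pos
    obtain ⟨T, hT, hj⟩ := conn (max t 1 + C)
    have hS := (h _ h0).1 T hT
    refine ⟨T + C, ?_, ?_⟩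
    · have := le_max_left t 1
      linarith
    · exact (hS.nullB_zero fun F hF => coc0_const hF hj).mono (monoX (le_max_left _ _))
  · obtain ⟨C, hC, φ, ψ, h⟩ := fn R
    have h0 : 0 < max t 1 := lt_max_of_lt_right one_pos
    obtain ⟨T, hT, hF⟩ := hlow (max t 1 + C)
    have hS := (h _ h0).1 T hT
    refine ⟨T + C, ?_, ?_⟩
    · have := le_max_left t 1
      linarith
    · exact (hS.nullB (hO _) hF).mono (monoX (le_max_left _ _))
  · obtain ⟨R₀, hR₀⟩ := hx₀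
    obtain ⟨C, hC, φ, ψ, h⟩ := fn (max R R₀)
    have h0 : 0 < max t 1 := lt_max_of_lt_right one_pos
    obtain ⟨h1, h2, h3⟩ := h _ h0
    have hS := h1 (max t 1 + C) le_rfl
    refine ⟨max t 1 + C, ?_, fun y hy => ⟨fun x l => y (l.map (φ x (max t 1))), ?_, ?_⟩⟩
    · have := le_max_left t 1
      linarith
    · exact famV_mono ((famV_of hS h2 hy).mono (monoX (le_max_left _ _)))
        (monoA (le_max_left _ _))
    · exact (exL_base_pt (φ := fun x => φ x (max t 1)) hq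
        (h3 (monoA (le_max_right _ _) hR₀)) hy).mono (monoO (le_max_left _ _))
  · obtain ⟨C, hC, φ, ψ, h⟩ := fn R
    have h0 : 0 < max t 1 := lt_max_of_lt_right one_pos
    have hS := (h _ h0).1 (max t 1 + C) le_rfl
    refine ⟨max t 1 + C + C, ?_, fun r hr => ?_⟩
    · have := le_max_left t 1
      linarith
    · obtain ⟨r', hr', hl⟩ := hS.locB (k := k) (hO _) q r hr
      refine ⟨r', hr', fun x hx f hf he => ?_⟩
      obtain ⟨g, -, hg⟩ := hl x [] ⟨fun y hy => by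
        rw [List.mem_singleton.1 hy]; exact hx, fun y hy z hz => by
        rw [List.mem_singleton.1 hy, List.mem_singleton.1 hz, dist_self]
        exact hr'⟩ f hf he
      exact ⟨g, fun ws hw hD => hg ws hw (hD.mono (monoX (le_max_left _ _)) le_rfl)⟩

end Vale.Agent.P216.H994
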