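import Vale.Agent.P216.B633.WOp

set_option linter.unusedSectionVars false

/-!
# P216-D: lifts from the weights of the power maps

`TSys.surjective_of_wopW`: as `TSys.surjective_of_wop` (file `B633/WOp.lean`) for an operator with
`A u = α u A`, `A d = δ d B`, `α ≠ 0` arbitrary.  For the power map `ψ_m : X s → X (m s)` one has
`α = m⁻¹`, `δ = m`.

`weights_even`, `weights_odd`: the numerical condition holds under the degree rule
`σ e = μ ^ (- e / 2)` (`e` even), `μ ≠ 1`.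
-/

open Module LinearMap Set

namespace Vale.Agent.P216.H994

open Vale.Agent.P216.AS (USeq)
open Vale.Agent.P216.T695
open Vale.Agent.P216.B633
open Vale.Agent.P216.B633.TSys

variable {k : Type} [Field k] {p : ℕ} {crit : Set ℝ} {S : TSys k p crit}

theorem key_w {α δ : k} {φ s : ℝ} (W : S.WOp α δ φ s) (hs : s ≤ φ) (hα : α ≠ 0)
    {σ : ℕ → k} (hB : ∀ e (x : S.Hi e), W.B e (S.rH φ e x) = σ e • S.rH s e x) (m n : ℕ)
    {y : S.F φ n} (hy : y ∈ S.Dg φ m n) :
    α⁻¹ ^ m • W.A n y - σ (n - 2 * m) • (S.TF n).ρ s φ hs y ∈ Dv (S.G s).u (m + 1) n := by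
  induction m generalizing n with
  | zero =>
    obtain ⟨x, hx⟩ : (S.G φ).π n y ∈ LinearMap.range (S.rH φ n) := hy
    have h1 : (S.G s).π n (α⁻¹ ^ 0 • W.A n y - σ (n - 2 * 0) • (S.TF n).ρ s φ hs y) = 0 := by
      rw [pow_zero, one_smul, map_sub, map_smul, ← W.hπ, ← S.ρ_π, ← hx, hB, (S.TH n).ρ_ev,
        mul_zero, Nat.sub_zero, sub_self]
    generalize α⁻¹ ^ 0 • W.A n y - σ (n - 2 * 0) • (S.TF n).ρ s φ hs y = z at h1
    rcases n with _ | _ | n
    · have : z = 0 := (S.G s).inj0 (by rw [h1, map_zero])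
      rw [this]; exact Submodule.zero_mem _
    · have : z = 0 := (S.G s).inj1 (Eq.trans h1 (map_zero ((S.G s).π 1)).symm)
      rw [this]; exact Submodule.zero_mem _
    · obtain ⟨w, rfl⟩ := ((S.G s).ex3 n z).1 h1
      exact ⟨w, Submodule.mem_top, rfl⟩
  | succ m ih =>
    rcases n with _ | _ | n
    · have : y = 0 := hy
      rw [this, map_zero, map_zero, smul_zero, smul_zero, sub_zero]; exact Submodule.zero_mem _
    · have : y = 0 := hy
      rw [this, map_zero, map_zero, smul_zero, smul_zero, sub_zero]; exact Submodule.zero_mem _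
    · obtain ⟨w, hw, rfl⟩ := hy
      have h1 := ih n hw
      refine ⟨_, h1, ?_⟩
      rw [W.hu, S.ρ_u, map_sub, map_smul, map_smul, smul_smul, pow_succ, mul_assoc,
        inv_mul_cancel₀ hα, mul_one, show n + 2 - 2 * (m + 1) = n - 2 * m by omega]

/-- **lifts from weights, level by level** -/
theorem surjective_of_wopW {a : ℕ → ℝ} (ha : RegCof crit a) {α δ : k} (hα : α ≠ 0)
    (σ : ℕ → k)
    (hst : ∀ t, 0 ≤ t → ∃ T, ∃ h : t ≤ T, ∀ e (x : S.H T e),
      (S.TH e).ρ t T h x ∈ LinearMap.range (S.rH t e))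
    (hW : ∀ s, 0 ≤ s → ∃ φ, s ≤ φ ∧ ∃ W : S.WOp α δ φ s, ∀ e (x : S.Hi e),
      W.B e (S.rH φ e x) = σ e • S.rH s e x) (n : ℕ)
    (hne : ∀ m e, e + 2 * m = n → σ e ≠ δ * σ (n + 1) * α⁻¹ ^ m) :
    Function.Surjective (S.πi (n + 1)) := by
  intro x
  apply ((S.Gi ha).ex1 n x).1
  change S.di n x = 0
  have main : ∀ m s, 0 ≤ s → S.rF s n (S.di n x) ∈ Dv (S.G s).u m n := by
    intro m
    induction m with
    | zero => exact fun _ _ => Submodule.mem_top
    | succ m ih =>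
      intro s hs
      obtain ⟨φ, hφ, W, hB⟩ := hW s hs
      obtain ⟨T, hT, hstT⟩ := hst φ (hs.trans hφ)
      have h1 := ih T (hs.trans (hφ.trans hT))
      rcases Nat.lt_or_ge n (2 * m) with h | h
      · rw [Dv_eq_bot _ _ _ h] at h1
        have h3 : S.rF T n (S.di n x) = 0 := h1
        rw [← (S.TF n).ρ_ev s T (hφ.trans hT), h3, map_zero]
        exact Submodule.zero_mem _
      · have h3 := ρ_mem_Dg hT hstT m n h1
        rw [(S.TF n).ρ_ev] at h3
        have h4 := key_w W hφ hα hB m n h3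
        rw [(S.TF n).ρ_ev] at h4
        change α⁻¹ ^ m • W.A n (S.rF φ n (S.di n x)) - σ (n - 2 * m) • S.rF s n (S.di n x) ∈ _
          at h4
        rw [rF_di, W.hd, hB, map_smul, ← rF_di, smul_smul, smul_smul, ← sub_smul] at h4
        have h5 : α⁻¹ ^ m * δ * σ (n + 1) - σ (n - 2 * m) ≠ 0 := fun h0 =>
          hne m (n - 2 * m) (by omega) (by linear_combination -h0)
        have h6 := Submodule.smul_mem _ (α⁻¹ ^ m * δ * σ (n + 1) - σ (n - 2 * m))⁻¹ h4
        rwa [smul_smul, inv_mul_cancel₀ h5, one_smul] at h6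
  refine (S.TF n).ext fun t => ?_
  change S.rF t n (S.di n x) = S.rF t n 0
  have h1 := main (n + 1) (max t 0) (le_max_right _ _)
  rw [Dv_eq_bot _ _ _ (by omega)] at h1
  have h3 : S.rF (max t 0) n (S.di n x) = 0 := h1
  rw [map_zero, ← (S.TF n).ρ_ev t (max t 0) (le_max_left _ _), h3, map_zero]

/-- The degree rule of the power map `ψ_m`, `μ = m` in `k`: `μ ^ (- e / 2)` in the even degrees,
`μ ^ ((1 - e) / 2)` in the odd ones. -/
noncomputable def wt (μ : k) (e : ℕ) : k := if e % 2 = 0 then μ⁻¹ ^ (e / 2) else μ⁻¹ ^ ((e - 1) / 2)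

/-- the numerical condition of `surjective_of_wopW` for `α = μ⁻¹`, `δ = μ` and odd classes -/
theorem wt_cond {μ : k} (h0 : μ ≠ 0) (h1 : μ ≠ 1) {n : ℕ} (hn : n % 2 = 0) :
    ∀ m e, e + 2 * m = n → wt μ e ≠ μ * wt μ (n + 1) * μ⁻¹⁻¹ ^ m := by
  intro m e he h
  have he2 : e % 2 = 0 := by omega
  rw [wt, wt, if_pos he2, if_neg (by omega), inv_inv] at h
  have e1 : (n + 1 - 1) / 2 = e / 2 + m := by omega
  rw [e1, pow_add, mul_assoc, mul_assoc, ← mul_pow, inv_mul_cancel₀ h0, one_pow, mul_one] at h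
  have h2 : μ⁻¹ ^ (e / 2) ≠ 0 := pow_ne_zero _ (inv_ne_zero h0)
  exact h1 (mul_right_cancel₀ h2 (by rw [one_mul]; exact h.symm))

/-- **All global classes of odd degree lift** (weights of the power maps). -/
theorem surjective_of_weights {a : ℕ → ℝ} (ha : RegCof crit a) {μ : k} (h0 : μ ≠ 0) (h1 : μ ≠ 1)
    (hst : ∀ t, 0 ≤ t → ∃ T, ∃ h : t ≤ T, ∀ e (x : S.H T e),
      (S.TH e).ρ t T h x ∈ LinearMap.range (S.rH t e))
    (hW : ∀ s, 0 ≤ s → ∃ φ, s ≤ φ ∧ ∃ W : S.WOp μ⁻¹ μ φ s, ∀ e (x : S.Hi e),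
      W.B e (S.rH φ e x) = wt μ e • S.rH s e x) (n : ℕ) (hn : n % 2 = 0) :
    Function.Surjective (S.πi (n + 1)) :=
  surjective_of_wopW ha (inv_ne_zero h0) (wt μ) hst hW n (wt_cond h0 h1 hn)

end Vale.Agent.P216.H994
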