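import Vale.Agent.P216.H994.EtaNe
import Vale.Agent.P216.E2L.Ext

/-!
# P216-B7, Z10: the Leray zigzag over an exhausting family of base sets

The base `A R`, `R : ℝ`, the total space `X t`, `t : ℝ`; every loss is arbitrary.

* `KillA`: the version of `E2L.Kill` with two base sets; `FamV.extA`: extension of fibre classes;
* `ZSys`: what geometry delivers; `ZSys.low`: the fibre cohomology dies in the degrees `< q` if the
  base cohomology dies in the degrees `≤ q`; `ZSys.nullB`; `ZSys.fin`: the transgression.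
-/

set_option linter.all false

open Set

namespace Vale.Agent.P216.H994

open Sl PS E2L D907 H892

variable {k : Type} [Field k] {M E : Type} [PseudoMetricSpace M] [PseudoMetricSpace E]

section

variable (π : E → M) (A A' : Set M) (X X' : Set E)

/-- The classes over `A` of the bicocycles of bidegree `(p, q)` die over `A'`. -/
def KillA (k : Type) [Field k] (p q : ℕ) : Prop :=
  ∀ F : Bi k M E, BC π A X p q F → ∃ G : List E → k, VV π p G ∧ (p + q = 0 → ∀ l, G l = 0) ∧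
    ∃ r > 0, ∀ l, l.length = p + q + 1 → SmL (X' ∩ π ⁻¹' A') r l → aw π p F l = dl G l

end

variable {π : E → M} {A A' : Set M} {X X' X'' : Set E} {p q m : ℕ}

theorem KillA.succ (hA : A' ⊆ A) (hX : X'' ⊆ X') (hS : Slot π A X X' k p q)
    (hK : KillA π A A' X' X'' k (p + 1) q) : KillA π A A' X X'' k p (q + 1) := by
  intro F hF
  obtain ⟨F', hF', G, hG, r, hr, h⟩ := hS F hF
  obtain ⟨G', hG', -, r', hr', h'⟩ := hK F' hF'
  refine ⟨fun l => G l + -(-1 : k) ^ p * G' l, hG.add ((hG'.mono (Nat.le_succ p)).smul _),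
    fun h => by omega, min r r', lt_min hr hr', fun l hl hs => ?_⟩
  have h1 := h l (by omega) (hs.mono (inter_subset_inter hX (preimage_mono hA)) (min_le_left _ _))
  have h2 := h' l (by omega) (hs.mono subset_rfl (min_le_right _ _))
  rw [Sl.dl_add, dl_mul_left, h1, h2]
  ring

/-- **The last slot.** -/
theorem killA_zero (hπ : ∀ w w', dist (π w) (π w') ≤ dist w w') (hA' : A' ⊆ A) (hX : X' ⊆ X)
    (hN : NullB π A X X' k 0) (hne : ∀ x ∈ A, ∃ w ∈ X', π w = x)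
    (hA : ∀ c : List M → k, Nrm c → CocL A p c → ExL A' p c) : KillA π A A' X X' k p 0 := by
  intro F hF
  obtain ⟨Y, hY, hd⟩ := exists_Y hN hF.n hF.e
  have hcN : Nrm fun xs => Y xs [] := hY []
  have hcc : CocL A p fun xs => Y xs [] := by
    have h1 := dM_mem hd
    rw [map_sub] at h1
    have h2 := sub_mem (Zs_mono hX hF.m) h1
    rw [sub_sub_cancel, dM_dE] at h2
    obtain ⟨r, hr, h⟩ := h2
    refine ⟨r, hr, fun l hl hs => ?_⟩
    rcases l with _ | ⟨x, l⟩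
    · simp at hl
    obtain ⟨w, hw, hx⟩ := hne x (hs.1 x (by simp))
    have h3 := h (x :: l) [w] hl rfl ⟨hs, ⟨fun y hy => ?_, fun y hy z hz => ?_⟩,
      fun y hy z hz => ?_⟩
    · rw [dE_apply, dl_one] at h3
      exact h3
    · rw [List.mem_singleton.1 hy]; exact hw
    · rw [List.mem_singleton.1 hy, List.mem_singleton.1 hz, dist_self]; exact hr
    · rw [List.mem_singleton.1 hz, hx]
      exact hs.2 y hy x (by simp)
  obtain ⟨b, hbN, hb0, r, hr, hb⟩ := nrm_prim hcN (hcc.mono hA') (hA _ hcN hcc)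
  obtain ⟨r', hr', h'⟩ := aw_mem (q := 0) hπ hd
  refine ⟨fun l => b (l.map π), fun hp l hl hv => ?_, fun h l => hb0 (by omega) _,
    min r r', lt_min hr hr', fun l hl hs => ?_⟩
  · rcases l with _ | ⟨w, _ | ⟨w', l⟩⟩
    · simp at hl
    · simp at hl
    · refine hbN _ fun hc => ?_
      rw [List.map_cons, List.map_cons, List.isChain_cons_cons] at hc
      exact hc.1 (hv w (by simp) w' (by simp))
  · have h1 := h' l (by omega) (hs.mono (inter_subset_inter_right _ (preimage_mono hA'))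
      (min_le_right _ _))
    rw [map_sub] at h1
    have h3 : aw π p F l = aw π p (dE Y) l := sub_eq_zero.1 h1
    have h4 : aw π p (dE Y) l = Y (l.map π) [] := by
      rw [aw_apply, List.take_of_length_le (by omega), dE_apply]
      obtain ⟨w, hw⟩ : ∃ w, l.drop p = [w] := List.length_eq_one_iff.1
        (by rw [List.length_drop]; omega)
      rw [hw, dl_one]
    rw [h3, h4, dl_map]
    refine hb _ (by rw [List.length_map]; omega) ⟨fun y hy => ?_, fun y hy z hz => ?_⟩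
    · obtain ⟨w, hw, rfl⟩ := List.mem_map.1 hy
      exact (hs.1 w hw).2
    · obtain ⟨w, hw, rfl⟩ := List.mem_map.1 hy
      obtain ⟨w', hw', rfl⟩ := List.mem_map.1 hz
      exact (hπ w w').trans_lt ((hs.2 w hw w' hw').trans_le (min_le_left _ _))

/-- **Extension of a fibre class, smaller base.** -/
theorem famV_extA {V : M → List E → k} (h : FamV π A X (q + 1) V)
    (hπ : ∀ w w', dist (π w) (π w') ≤ dist w w') (hA : A' ⊆ A) (hX : X' ⊆ X)
    (hK : KillA π A A' X X' k 2 q) :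
    ∃ Z, CocL (X' ∩ π ⁻¹' A') (q + 1) Z ∧ VE π (q + 1) Z (diagV π V) := by
  obtain ⟨W, F, hO, hW⟩ := h.obs hπ
  obtain ⟨G, hG, -, r, hr, h1⟩ := hK F hO.bc
  obtain ⟨r', hr', h2⟩ := hO.eq
  refine ⟨fun l => W l + -1 * G l, ⟨min r r', lt_min hr hr', fun l hl hs => ?_⟩,
    fun l hl hv => ?_⟩
  · rw [Sl.dl_add, dl_mul_left, h2 l hl (hs.mono (inter_subset_inter hX (preimage_mono hA))
      (min_le_right _ _)), h1 l (by omega) (hs.mono subset_rfl (min_le_left _ _))]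
    ring
  · show W l + -1 * G l = _
    rw [hG le_rfl l (by omega) hv, ← hW l hl hv]
    ring

/-- Killing through all slots, arbitrary losses. -/
theorem exists_killA {A : Set M} {Y : ℝ → Set E} (hπ : ∀ w w', dist (π w) (π w') ≤ dist w w')
    (hY : Monotone Y) (hA' : A' ⊆ A) (t : ℝ) (hne : ∀ x ∈ A, ∃ w ∈ Y t, π w = x) :
    ∀ q p, (∀ i ≤ q, ∀ t, ∃ T, t ≤ T ∧ NullB π A (Y T) (Y t) k i) →
    (∀ c : List M → k, Nrm c → CocL A (p + q) c → ExL A' (p + q) c) →
    ∃ T, t ≤ T ∧ KillA π A A' (Y T) (Y t) k p q := by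
  intro q
  induction q with
  | zero =>
    intro p hn hc
    obtain ⟨T, hT, h⟩ := hn 0 le_rfl t
    exact ⟨T, hT, killA_zero hπ hA' (hY hT) h hne hc⟩
  | succ q ih =>
    intro p hn hc
    obtain ⟨T, hT, h⟩ := ih (p + 1) (fun i hi => hn i (by omega)) fun c h1 h2 => by
      have e : p + 1 + q = p + (q + 1) := by omega
      rw [e] at h2 ⊢
      exact hc c h1 h2
    obtain ⟨T', hT', h'⟩ := hn (q + 1) le_rfl T
    exact ⟨T', hT.trans hT', KillA.succ hA' (hY hT) (slot_null hπ (hY hT') h') h⟩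

variable {E' : Type} [PseudoMetricSpace E']

/-- What geometry delivers: the base `A R`, the total space `X t`, the model fibre `O t` with its
inclusion `ι` as the fibre over `x₀`. -/
structure ZSys (k : Type) [Field k] (π : E → M) (A : ℝ → Set M) (X : ℝ → Set E) (O : ℝ → Set E')
    (x₀ : M) (ι : E' → E) : Prop where
  monoA : Monotone A
  monoX : Monotone X
  monoO : Monotone O
  lip : ∀ w w', dist (π w) (π w') ≤ dist w w'
  ι_lip : ∀ v v', dist (ι v) (ι v') ≤ dist v v'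
  ι_mem : ∀ t, ∀ v ∈ O t, ι v ∈ X t ∧ π (ι v) = x₀
  ne : ∀ R, ∃ t, ∀ x ∈ A R, ∃ w ∈ X t, π w = x
  reach : ∀ t, ∃ R, ∀ w ∈ X t, π w ∈ A R
  cone : ∀ t, ∃ T, t ≤ T ∧ ∀ q, 1 ≤ q → ∀ F : List E → k, CocL (X T) q F → ExL (X t) q F
  zero : ∀ R t, ∃ T, t ≤ T ∧ NullB π (A R) (X T) (X t) k 0
  null : ∀ q, 1 ≤ q →
    (∀ t, ∃ T, t ≤ T ∧ ∀ F : List E' → k, CocL (O T) q F → ExL (O t) q F) →
    ∀ R t, ∃ T, t ≤ T ∧ NullB π (A R) (X T) (X t) k q
  fam : ∀ R t q, 1 ≤ q → ∃ T, t ≤ T ∧ ∀ y : List E' → k, CocL (O T) q y →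
    ∃ V : M → List E → k, FamV π (A R) (X t) q V ∧ ExL (O t) q fun l => V x₀ (l.map ι) - y l
  loc : ∀ R t q, ∃ T, t ≤ T ∧ ∀ r > 0, ∃ r' > 0, ∀ x ∈ A R, ∀ f : List E → k,
    (∀ ws, ws.length = q + 2 → Dom π (A R) (X T) r [x] ws → dl f ws = 0) →
    ExL {w | w ∈ X T ∧ π w = x} q f →
    ∃ g : List E → k, ∀ ws, ws.length = q + 1 → Dom π (A R) (X t) r' [x] ws → f ws = dl g ws

namespace ZSys

variable {A : ℝ → Set M} {X : ℝ → Set E} {O : ℝ → Set E'} {x₀ : M} {ι : E' → E}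

theorem exists_ne (S : ZSys k π A X O x₀ ι) (R t : ℝ) : ∃ T, t ≤ T ∧ ∀ x ∈ A R, ∃ w ∈ X T,
    π w = x := by
  obtain ⟨s, hs⟩ := S.ne R
  exact ⟨max s t, le_max_right _ _, fun x hx => by
    obtain ⟨w, hw, e⟩ := hs x hx
    exact ⟨w, S.monoX (le_max_left _ _) hw, e⟩⟩

/-- The base: the classes of degree `j` of the large sets die on the small sets. -/
def NZA (k : Type) [Field k] (A : ℝ → Set M) (j : ℕ) : Prop :=
  ∀ R : ℝ, ∃ R' : ℝ, R ≤ R' ∧ ∀ f : List M → k, CocL (A R') j f → ExL (A R) j f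

/-- The fibre: the classes of degree `j` die. -/
def LowO (k : Type) [Field k] (O : ℝ → Set E') (j : ℕ) : Prop :=
  ∀ t : ℝ, ∃ T, t ≤ T ∧ ∀ F : List E' → k, CocL (O T) j F → ExL (O t) j F

/-- **One step.** -/
theorem low_step (S : ZSys k π A X O x₀ ι) {q : ℕ}
    (hn : ∀ i ≤ q, ∀ R t, ∃ T, t ≤ T ∧ NullB π (A R) (X T) (X t) k i) (hb : NZA k A (q + 2)) :
    LowO k O (q + 1) := by
  intro t
  obtain ⟨t₁, ht₁, hcone⟩ := S.cone t
  obtain ⟨R₁, hR₁⟩ := S.reach t₁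
  obtain ⟨R₂, hR₂, hb⟩ := hb R₁
  obtain ⟨t', ht', hne⟩ := S.exists_ne R₂ t₁
  obtain ⟨T₀, hT₀, hK⟩ := exists_killA (k := k) (A' := A R₁) S.lip S.monoX (S.monoA hR₂) t' hne
    q 2 (fun i hi => hn i hi R₂) fun c _ hc => by
      rw [show 2 + q = q + 2 by omega] at hc ⊢
      exact hb c hc
  obtain ⟨T, hT, hfam⟩ := S.fam R₂ T₀ (q + 1) (by omega)
  refine ⟨T, ht₁.trans (ht'.trans (hT₀.trans hT)), fun y hy => ?_⟩
  obtain ⟨V, hV, hVy⟩ := hfam y hy
  obtain ⟨Z, hZ, hZV⟩ := famV_extA hV S.lip (S.monoA hR₂) (S.monoX hT₀) hK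
  have hsub : X t₁ ⊆ X t' ∩ π ⁻¹' A R₁ := fun w hw => ⟨S.monoX ht' hw, hR₁ w hw⟩
  obtain ⟨g, -, ε, hε, hg⟩ := hcone (q + 1) (by omega) Z (hZ.mono hsub)
  obtain ⟨g', -, ε', hε', hg'⟩ := hVy
  refine ⟨fun l => g (l.map ι) - g' l, fun h => by omega, min ε ε', lt_min hε hε',
    fun l hl hs => ?_⟩
  have e1 := hg' l hl (hs.mono (S.monoO (ht₁.trans (ht'.trans hT₀))) (min_le_right _ _))
  have hm : SmL (X t) ε (l.map ι) := by
    refine ⟨fun w hw => ?_, fun w hw w' hw' => ?_⟩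
    · obtain ⟨v, hv, rfl⟩ := List.mem_map.1 hw
      exact (S.ι_mem t v (hs.1 v hv)).1
    · obtain ⟨v, hv, rfl⟩ := List.mem_map.1 hw
      obtain ⟨v', hv', rfl⟩ := List.mem_map.1 hw'
      exact (S.ι_lip v v').trans_lt ((hs.2 v hv v' hv').trans_le (min_le_left _ _))
  have e2 := hg (l.map ι) (by rw [List.length_map, hl]) hm
  have hπx : ∀ w ∈ l.map ι, π w = x₀ := fun w hw => by
    obtain ⟨v, hv, rfl⟩ := List.mem_map.1 hw
    exact (S.ι_mem t v (hs.1 v hv)).2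
  have e3 := hZV (l.map ι) (by rw [List.length_map, hl]) fun w hw w' hw' => by
    rw [hπx w hw, hπx w' hw']
  have e4 : diagV π V (l.map ι) = V x₀ (l.map ι) := by
    rcases l with _ | ⟨v, l⟩
    · simp at hl
    · show V (π (ι v)) (ι v :: l.map ι) = _
      rw [hπx (ι v) (by simp)]
      rfl
  rw [dl_sub, dl_map, ← e2, ← e1, e3, e4]
  ring

/-- **The fibre cohomology dies.** -/
theorem low (S : ZSys k π A X O x₀ ι) {q : ℕ} (hb : ∀ j, 1 ≤ j → j ≤ q → NZA k A j) :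
    ∀ j, 1 ≤ j → j < q → LowO k O j := by
  have key : ∀ n, ∀ j, j ≤ n → j < q →
      (1 ≤ j → LowO k O j) ∧ ∀ R t, ∃ T, t ≤ T ∧ NullB π (A R) (X T) (X t) k j := by
    intro n
    induction n with
    | zero =>
      intro j hj _
      obtain rfl : j = 0 := by omega
      exact ⟨fun h => by omega, S.zero⟩
    | succ n ih =>
      intro j hj hjq
      rcases hj.lt_or_eq with h | rfl
      · exact ih j (by omega) hjq
      · have h1 : LowO k O (n + 1) := S.low_step (fun i hi => (ih i hi (by omega)).2)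
          (hb _ (by omega) (by omega))
        exact ⟨fun _ => h1, S.null _ (by omega) h1⟩
  exact fun j hj hjq => (key j j le_rfl hjq).1 hj

theorem nullB (S : ZSys k π A X O x₀ ι) {q : ℕ} (hb : ∀ j, 1 ≤ j → j ≤ q → NZA k A j) (j : ℕ)
    (hj : j < q) (R t : ℝ) : ∃ T, t ≤ T ∧ NullB π (A R) (X T) (X t) k j := by
  rcases Nat.eq_zero_or_pos j with rfl | h
  · exact S.zero R t
  · exact S.null j h (S.low hb j h hj) R t

/-- **The transgression.** -/
theorem fin (S : ZSys k π A X O x₀ ι) {q : ℕ} (hq : 1 ≤ q)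
    (hb : ∀ j, 1 ≤ j → j ≤ q → NZA k A j) {ξ : List M → k} (nξ : Nrm ξ)
    (cξ : ∃ ε > 0, ∀ l, l.length = q + 1 + 2 → SmL (univ : Set M) ε l → dl ξ l = 0) (R : ℝ) :
    ∃ T, ∀ (s : k), s ≠ 0 → ∀ η : List E → k,
      (∃ ε > 0, ∀ ws, ws.length = q + 1 + 1 → SmL (X T) ε ws → dl η ws = s * ξ (ws.map π)) →
      (∀ x ∈ A R, ExL {w | w ∈ X T ∧ π w = x} q η) → ExL (A R) (q + 1) ξ := by
  have h1 : ∀ (i : ℕ) (t : ℝ), ∃ T, t ≤ T ∧ (i < q → NullB π (A R) (X T) (X t) k i) := by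
    intro i t
    by_cases hi : i < q
    · obtain ⟨T, hT, h⟩ := S.nullB hb i hi R t
      exact ⟨T, hT, fun _ => h⟩
    · exact ⟨t, le_rfl, fun h => absurd h hi⟩
  choose Tf hTf hNf using h1
  obtain ⟨t₀, -, hne⟩ := S.exists_ne R 0
  set σ : ℕ → ℝ := fun i => Nat.rec t₀ (fun i t => Tf i t) i with hσ
  have hσ0 : σ 0 = t₀ := rfl
  have hσs : ∀ i, σ (i + 1) = Tf i (σ i) := fun i => rfl
  obtain ⟨T, hT, hloc⟩ := S.loc R (σ q) q
  refine ⟨T, fun s hs η hη hex => ?_⟩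
  refine exL_base (π := π) (A := A R) (X := fun j => X (σ (q - j))) (X₀ := X T) (d := q + 1)
    S.lip (by omega) (fun j => ?_) (fun j hj => ?_) (fun x hx => ?_) (fun r hr => ?_) hs nξ cξ hη
    hex
  · -- decreasing
    rcases Nat.lt_or_ge j q with h | h
    · have e : q - j = (q - (j + 1)) + 1 := by omega
      rw [e, hσs]
      exact S.monoX (hTf _ _)
    · have e : q - j = q - (j + 1) := by omega
      rw [e]
  · have e : q - j = (q - (j + 1)) + 1 := by omega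
    have e' : q + 1 - 2 - j = q - (j + 1) := by omega
    show NullB π (A R) (X (σ (q - j))) (X (σ (q - (j + 1)))) k (q + 1 - 2 - j)
    rw [e, hσs, e']
    exact hNf _ _ (by omega)
  · obtain ⟨w, hw, e⟩ := hne x hx
    refine ⟨w, ?_, e⟩
    show w ∈ X (σ (q - (q + 1 - 1)))
    rw [show q - (q + 1 - 1) = 0 by omega]
    exact hw
  · obtain ⟨r', hr', h⟩ := hloc r hr
    exact ⟨r', hr', h⟩

end ZSys

end Vale.Agent.P216.H994
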