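import Vale.Agent.P216.T695.End
import Vale.Agent.P216.B633.T12

set_option linter.unusedSectionVars false

/-!
# P216, Theorem C: the saturation statement (TX) from the inequality `PropT12`

If the non-global dimensions in even degrees agree at `t` and `t / p`, then every class of even
degree whose localisation is global is itself global.
-/

open Module Set

namespace Vale.Agent.P216.H994

open Vale.Agent.P216.AS (USeq Crit)
open Vale.Agent.P216.T695 (Loc Rinf fin_F mem_tor_iff)
open Vale.Agent.P216.Tight923 (tor mem_tor)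
open Vale.Agent.P216.B633 (propT12)

section

variable {k : Type} [Field k] {Hi Fi H F H' : ℕ → Type}
    [∀ n, AddCommGroup (Hi n)] [∀ n, Module k (Hi n)]
    [∀ n, AddCommGroup (Fi n)] [∀ n, Module k (Fi n)]
    [∀ n, AddCommGroup (H n)] [∀ n, Module k (H n)]
    [∀ n, AddCommGroup (F n)] [∀ n, Module k (F n)]
    [∀ n, AddCommGroup (H' n)] [∀ n, Module k (H' n)]

/-- classes whose localisation is global -/
def XX (G : USeq k F H) (L : Loc k F H' G.u) (rH' : ∀ n, Hi n →ₗ[k] H' n) (n : ℕ) :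
    Submodule k (F n) :=
  ⨅ j, (LinearMap.range (rH' j)).comap (L.ℓ n j)

theorem mem_XX {G : USeq k F H} {L : Loc k F H' G.u} {rH' : ∀ n, Hi n →ₗ[k] H' n} {n : ℕ}
    {x : F n} : x ∈ XX G L rH' n ↔ ∀ j, L.ℓ n j x ∈ LinearMap.range (rH' j) := by
  simp [XX, Submodule.mem_iInf, Submodule.mem_comap]

/-- `Rinf` only depends on the ranges -/
theorem rinf_congr {Hj : ℕ → Type} [∀ n, AddCommGroup (Hj n)] [∀ n, Module k (Hj n)]
    {r : ∀ n, Hi n →ₗ[k] H n} {r' : ∀ n, Hj n →ₗ[k] H n} {q : ℕ}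
    (h : ∀ n, LinearMap.range (r n) = LinearMap.range (r' n)) : Rinf k r q = Rinf k r' q := by
  unfold Rinf
  congr 1
  ext n
  rw [h n]

/-- if the new images contain the old ones and the count is the same, the images agree -/
theorem range_eq_of_rinf {Hj : ℕ → Type} [∀ n, AddCommGroup (Hj n)] [∀ n, Module k (Hj n)]
    [∀ n, FiniteDimensional k (H n)]
    {r : ∀ n, Hi n →ₗ[k] H n} {r' : ∀ n, Hj n →ₗ[k] H n} {q : ℕ}
    (hfin : ∃ N, ∀ n ≥ N, Subsingleton (H n))
    (h : ∀ n, n % 2 = q → LinearMap.range (r n) ≤ LinearMap.range (r' n))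
    (hR : Rinf k r q ≤ Rinf k r' q) :
    ∀ n, n % 2 = q → LinearMap.range (r n) = LinearMap.range (r' n) := by
  obtain ⟨N, hN⟩ := hfin
  have key : ∀ {Hl : ℕ → Type} [∀ n, AddCommGroup (Hl n)] [∀ n, Module k (Hl n)]
      (ρ : ∀ n, Hl n →ₗ[k] H n), Rinf k ρ q = ∑ n ∈ Finset.range N,
      (if n % 2 = q then finrank k (H n) - finrank k (LinearMap.range (ρ n)) else 0) := by
    intro Hl _ _ ρ
    unfold Rinf
    apply finsum_eq_sum_of_support_subset
    intro n hn
    rw [Finset.coe_range, mem_Iio]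
    by_contra hc
    apply hn
    have := hN n (not_lt.1 hc)
    have h1 : finrank k (H n) = 0 := finrank_zero_of_subsingleton
    simp only [h1, Nat.zero_sub, ite_self]
  rw [key r, key r'] at hR
  have hle : ∀ n ∈ Finset.range N,
      (if n % 2 = q then finrank k (H n) - finrank k (LinearMap.range (r' n)) else 0) ≤
      (if n % 2 = q then finrank k (H n) - finrank k (LinearMap.range (r n)) else 0) := by
    intro n _
    split_ifs with hq
    · have := Submodule.finrank_mono (h n hq)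
      omega
    · exact le_rfl
  intro n hq
  apply Submodule.eq_of_le_of_finrank_eq (h n hq)
  by_cases hn : n < N
  · have h1 := (Finset.sum_eq_sum_iff_of_le hle).1
      (le_antisymm (Finset.sum_le_sum hle) hR) n (Finset.mem_range.2 hn)
    rw [if_pos hq, if_pos hq] at h1
    have h2 := Submodule.finrank_le (LinearMap.range (r n))
    have h3 := Submodule.finrank_le (LinearMap.range (r' n))
    omega
  · have := hN n (not_lt.1 hn)
    rw [Subsingleton.elim (LinearMap.range (r n)) ⊥, Subsingleton.elim (LinearMap.range (r' n)) ⊥]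

/-- **(TX)**: in the equality case (even degrees) every class whose localisation is global is
global. -/
theorem tx [∀ n, FiniteDimensional k (H n)] [∀ n, FiniteDimensional k (F n)]
    [∀ n, FiniteDimensional k (H' n)]
    (ui : ∀ n, Fi n →ₗ[k] Fi (n + 2)) (πi : ∀ n, Fi n →ₗ[k] Hi n)
    (G : USeq k F H) (L : Loc k F H' G.u)
    (rH : ∀ n, Hi n →ₗ[k] H n) (rF : ∀ n, Fi n →ₗ[k] F n) (rH' : ∀ n, Hi n →ₗ[k] H' n)
    (hu : ∀ n x, rF (n + 2) (ui n x) = G.u n (rF n x))
    (hπ : ∀ n x, G.π n (rF n x) = rH n (πi n x))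
    (hg : ∀ e j x, L.ℓ e j (rF e x) ∈ LinearMap.range (rH' j))
    (hfin : ∃ N, ∀ n ≥ N, Subsingleton (H n)) (hfin' : ∃ N, ∀ n ≥ N, Subsingleton (H' n))
    (hl : ∀ n, n % 2 = 0 → Function.Surjective (πi n)) (hR : Rinf k rH 0 ≤ Rinf k rH' 0) :
    ∀ e, e % 2 = 0 → ∀ x : F e, (∀ j, L.ℓ e j x ∈ LinearMap.range (rH' j)) →
      x ∈ LinearMap.range (rF e) := by
  classical
  let X : ∀ n, Submodule k (F n) := XX G L rH'
  let A : ∀ n, Submodule k (H' n) := fun n => LinearMap.range (rH' n)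
  have hX : ∀ n (x : F n), x ∈ X n ↔ ∀ j, L.ℓ n j x ∈ LinearMap.range (rH' j) := fun n x =>
    mem_XX
  have huX : ∀ n, ∀ x ∈ X n, G.u n x ∈ X (n + 2) := by
    intro n x hx
    rw [hX] at hx ⊢
    intro j
    rw [L.ℓ_u]
    exact hx j
  let un : ∀ n, (X n × A n) →ₗ[k] (X (n + 2) × A (n + 2)) := fun n =>
    LinearMap.prod (((G.u n).restrict (huX n)).comp (LinearMap.fst k _ _)) 0
  let rFn : ∀ n, (X n × A n) →ₗ[k] F n := fun n => (X n).subtype.comp (LinearMap.fst k _ _)
  let rHn : ∀ n, (X n × A n) →ₗ[k] H n := fun n =>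
    (G.π n).comp ((X n).subtype.comp (LinearMap.fst k _ _))
  let rHn' : ∀ n, (X n × A n) →ₗ[k] H' n := fun n => (A n).subtype.comp (LinearMap.snd k _ _)
  have hr' : ∀ n, LinearMap.range (rHn' n) = LinearMap.range (rH' n) := by
    intro n
    ext y
    constructor
    · rintro ⟨x, rfl⟩
      exact x.2.2
    · intro hy
      exact ⟨(0, ⟨y, hy⟩), rfl⟩
  have h12 := (propT12 k (fun n => X n × A n) (fun n => X n × A n) H F H' un
    (fun n => LinearMap.id) G L rHn rFn rHn' (fun n x => rfl) (fun n x => rfl)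
    (fun e j x => by
      rw [hr']
      exact (hX e _).1 x.1.2 j) hfin hfin' 0 (by norm_num)
    (fun n _ => Function.surjective_id)).1
  rw [rinf_congr hr'] at h12
  have hrange := range_eq_of_rinf (r := rH) (r' := rHn) hfin (fun n hn => by
    rintro _ ⟨x, rfl⟩
    obtain ⟨y, rfl⟩ := hl n hn x
    exact ⟨(⟨rF n y, (hX n _).2 fun j => hg n j y⟩, 0), hπ n y⟩) (hR.trans h12)
  intro e
  induction e using Nat.strong_induction_on with
  | _ e ih =>
    intro he x hx
    have h1 : G.π e x ∈ LinearMap.range (rH e) := by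
      rw [hrange e he]
      exact ⟨(⟨x, (hX e x).2 hx⟩, 0), rfl⟩
    obtain ⟨w, hw⟩ := h1
    obtain ⟨y, rfl⟩ := hl e he w
    have h2 : G.π e (x - rF e y) = 0 := by
      rw [map_sub, hπ, hw, sub_self]
    match e, ih, he, x, hx, y, hw, h2 with
    | 0, ih, he, x, hx, y, hw, h2 =>
      have h3 : x - rF 0 y = 0 := G.inj0 (by rw [h2, map_zero])
      exact ⟨y, (sub_eq_zero.1 h3).symm⟩
    | 1, ih, he, x, hx, y, hw, h2 => omega
    | n + 2, ih, he, x, hx, y, hw, h2 =>
      obtain ⟨z, hz⟩ := (G.ex3 n _).1 h2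
      have h4 : ∀ j, L.ℓ n j z ∈ LinearMap.range (rH' j) := by
        intro j
        rw [← L.ℓ_u, hz, map_sub]
        exact Submodule.sub_mem _ (hx j) (hg (n + 2) j y)
      obtain ⟨v, hv⟩ := ih n (by omega) (by omega) z h4
      refine ⟨y + ui n v, ?_⟩
      rw [map_add, hu, hv, hz]
      abel

end

end Vale.Agent.P216.H994
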