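import Vale.Agent.P216.E2L.Line

/-!
# P216-D, [TRG]: the transgression formula for the Leray zigzag of double lists

`η` a cochain on `E` with `dl η = s * ξ ∘ π`.  If a bicocycle of bidegree `(a, d - 1)` is, up to
the coboundary of the fibre variable, `c ⊗ η`, and the fibre cohomology of the degrees `≤ d - 2`
dies, then `ξ ∪ c` is exact on the base.
-/

set_option linter.all false

open Set

namespace Vale.Agent.P216.H994

open Sl PS E2L

variable {k : Type} [Field k] {M E : Type}

/-- `W j (x₀ … x_j l; ws) = ξ (x₀ … x_j π(ws)) * c (x_j l)` -/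
def WW (π : E → M) (j : ℕ) (ξ c : List M → k) : Bi k M E := fun xs ws =>
  ξ (xs.take (j + 1) ++ ws.map π) * c (xs.drop j)

theorem dE_WW (π : E → M) (j : ℕ) (ξ c : List M → k) (xs : List M) (ws : List E) :
    dE (WW π j ξ c) xs ws = dl (fun ys => ξ (xs.take (j + 1) ++ ys)) (ws.map π) *
      c (xs.drop j) := by
  rw [dE_apply]
  have e : WW π j ξ c xs = fun w => c (xs.drop j) *
      (fun ys => ξ (xs.take (j + 1) ++ ys)) (w.map π) := by
    funext w
    rw [mul_comm]
    rfl
  rw [e, dl_mul_left, dl_map (fun ys => ξ (xs.take (j + 1) ++ ys)) π, mul_comm]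

/-- The basic identity. -/
theorem dM_WW (π : E → M) (c : List M → k) : ∀ (j : ℕ) (ξ : List M → k) (xs : List M)
    (ws : List E), j + 2 ≤ xs.length →
    dM (WW π j ξ c) xs ws = dl ξ (xs.take (j + 2) ++ ws.map π) * c (xs.drop (j + 1)) +
      (-1) ^ (j + 1) * dE (WW π (j + 1) ξ c) xs ws +
      (-1) ^ j * (ξ (xs.take (j + 1) ++ ws.map π) * dl c (xs.drop j)) := by
  intro j
  induction j with
  | zero =>
    intro ξ xs ws hl
    rcases xs with _ | ⟨x, _ | ⟨y, l⟩⟩
    · simp at hl
    · simp at hl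
    rw [dE_WW, dM_cons, dM_apply]
    have e1 : dl (fun ys => WW π 0 ξ c (x :: ys) ws) (y :: l) =
        ξ (x :: ws.map π) * dl (fun ys => c (x :: ys)) (y :: l) := by
      have : (fun ys => WW π 0 ξ c (x :: ys) ws) = fun ys => ξ (x :: ws.map π) * c (x :: ys) := by
        funext ys
        simp [WW]
      rw [this, dl_mul_left]
    have e2 : WW π 0 ξ c (y :: l) ws = ξ (y :: ws.map π) * c (y :: l) := by simp [WW]
    have e3 : dl ξ (x :: y :: ws.map π) = ξ (y :: ws.map π) -
        (ξ (x :: ws.map π) - dl (fun ys => ξ (x :: y :: ys)) (ws.map π)) := by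
      rw [dl_cons, dl_cons]
    have e4 : dl c (x :: y :: l) = c (y :: l) - dl (fun ys => c (x :: ys)) (y :: l) := dl_cons _ _ _
    rw [e1, e2]
    simp only [List.take_succ_cons, List.take_zero, List.cons_append, List.nil_append,
      List.drop_zero, List.drop_succ_cons, zero_add]
    rw [e3, e4]
    ring
  | succ j ih =>
    intro ξ xs ws hl
    rcases xs with _ | ⟨x, xs⟩
    · simp at hl
    have hl' : j + 2 ≤ xs.length := by simpa using hl
    rw [dM_cons]
    have e0 : (fun ys ws => WW π (j + 1) ξ c (x :: ys) ws) =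
        WW π j (fun ys => ξ (x :: ys)) c := by
      funext ys ws
      simp [WW]
    rw [e0, ih _ xs ws hl', dE_WW, dE_WW]
    have e1 : dl ξ ((x :: xs).take (j + 1 + 2) ++ ws.map π) =
        ξ (xs.take (j + 2) ++ ws.map π) -
          dl (fun ys => ξ (x :: ys)) (xs.take (j + 2) ++ ws.map π) := by
      rw [show (x :: xs).take (j + 1 + 2) = x :: xs.take (j + 2) from rfl, List.cons_append,
        dl_cons]
    rw [e1]
    simp only [WW, List.take_succ_cons, List.cons_append, List.drop_succ_cons, pow_succ]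
    ring

theorem chain_of {α : Type} {R : α → α → Prop} : ∀ (j : ℕ) (l : List α),
    (l.drop j).IsChain R → (l.take (j + 1)).IsChain R → l.IsChain R := by
  intro j
  induction j with
  | zero => exact fun l h _ => h
  | succ j ih =>
    intro l h1 h2
    rcases l with _ | ⟨x, _ | ⟨y, l⟩⟩
    · exact List.isChain_nil
    · exact List.isChain_singleton _
    · rw [List.take_succ_cons, List.take_succ_cons, List.isChain_cons_cons] at h2
      rw [List.isChain_cons_cons]
      exact ⟨h2.1, ih (y :: l) h1 (by rw [List.take_succ_cons]; exact h2.2)⟩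

section

variable [PseudoMetricSpace M] [PseudoMetricSpace E]

/-- **[TRG]** -/
theorem trg {π : E → M} (hπ : ∀ w w', dist (π w) (π w') ≤ dist w w') {A : Set M}
    {X : ℕ → Set E} {a d : ℕ} (hd : 1 ≤ d) (hXm : ∀ j, X (j + 1) ⊆ X j)
    (hnull : ∀ j, j + 2 ≤ d → NullB π A (X j) (X (j + 1)) k (d - 2 - j))
    (hne : ∀ x ∈ A, ∃ w ∈ X (d - 1), π w = x)
    {s : k} (hs : s ≠ 0) {ξ : List M → k} (nξ : Nrm ξ)
    (cξ : ∃ ε > 0, ∀ l, l.length = d + 2 → SmL (univ : Set M) ε l → dl ξ l = 0)
    {c : List M → k} (nc : Nrm c) (cc : CocL A a c) {η : List E → k} {F Y : Bi k M E}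
    (hF : dM F ∈ Zs π A (X 0) k (a + 2) d) (hY : NrmM Y)
    (hd' : F - ten c (fun x ws => η ws - s * ξ (x :: ws.map π)) - dE Y ∈
      Zs π A (X 0) k (a + 1) d) :
    ExL A (a + d) fun l => ξ (l.take (d + 1)) * c (l.drop d) := by
  obtain ⟨ε₁, hε₁, hξ⟩ := cξ
  obtain ⟨ε₂, hε₂, hc⟩ := cc
  set W : ℕ → Bi k M E := fun j => s • WW π j ξ c with hW
  have nW : ∀ j, NrmM (W j) := by
    intro j ws xs hx
    show s * (ξ (xs.take (j + 1) ++ ws.map π) * c (xs.drop j)) = 0
    by_cases h1 : (xs.drop j).IsChain (· ≠ ·)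
    · by_cases h2 : (xs.take (j + 1)).IsChain (· ≠ ·)
      · exact absurd (chain_of j xs h1 h2) hx
      · rw [nξ _ fun h => h2 h.left_of_append, zero_mul, mul_zero]
    · rw [nc _ h1, mul_zero, mul_zero]
  -- small double lists
  have hW1 : ∀ j, j ≤ d → dM (W j) - (-1 : k) ^ (j + 1) • dE (W (j + 1)) ∈
      Zs π A (X j) k (a + 2 + j) (d - j) := by
    intro j hj
    refine ⟨min ε₁ ε₂, lt_min hε₁ hε₂, fun xs ws h1 h2 hD => ?_⟩
    have e1 := dM_WW π c j ξ xs ws (by omega)
    have e2 : dl ξ (xs.take (j + 2) ++ ws.map π) = 0 := by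
      refine hξ _ ?_ ⟨fun _ _ => mem_univ _, ?_⟩
      · rw [List.length_append, List.length_take, List.length_map]
        omega
      · have hx : ∀ x ∈ xs.take (j + 2), x ∈ xs := fun x hx => List.mem_of_mem_take hx
        have hlt : ∀ {t : ℝ}, t < min ε₁ ε₂ → t < ε₁ := fun h => h.trans_le (min_le_left _ _)
        intro x hx1 y hy1
        rw [List.mem_append] at hx1 hy1
        rcases hx1 with hx1 | hx1 <;> rcases hy1 with hy1 | hy1
        · exact hlt (hD.1.2 x (hx x hx1) y (hx y hy1))
        · obtain ⟨w, hw, rfl⟩ := List.mem_map.1 hy1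
          exact hlt (hD.2.2 x (hx x hx1) w hw)
        · obtain ⟨w, hw, rfl⟩ := List.mem_map.1 hx1
          rw [dist_comm]
          exact hlt (hD.2.2 y (hx y hy1) w hw)
        · obtain ⟨w, hw, rfl⟩ := List.mem_map.1 hx1
          obtain ⟨w', hw', rfl⟩ := List.mem_map.1 hy1
          exact (hπ w w').trans_lt (hlt (hD.2.1.2 w hw w' hw'))
    have e3 : dl c (xs.drop j) = 0 := by
      refine hc _ (by rw [List.length_drop]; omega) ⟨fun x hx => ?_, fun x hx y hy => ?_⟩
      · exact hD.1.1 x (List.mem_of_mem_drop hx)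
      · exact (hD.1.2 x (List.mem_of_mem_drop hx) y (List.mem_of_mem_drop hy)).trans_le
          (min_le_right _ _)
    rw [e2, e3, zero_mul, mul_zero, mul_zero, zero_add, add_zero] at e1
    rw [hW]
    simp only [map_smul]
    show s * dM (WW π j ξ c) xs ws - (-1) ^ (j + 1) * (s * dE (WW π (j + 1) ξ c) xs ws) = 0
    rw [e1]
    ring
  have key : ∀ j, j + 1 ≤ d → ∃ Y : Bi k M E, NrmM Y ∧
      dE (W (j + 1) + (-1 : k) ^ j • dM Y) ∈ Zs π A (X j) k (a + 2 + j) (d - j) := by
    intro j
    induction j with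
    | zero =>
      intro _
      refine ⟨Y, hY, ?_⟩
      set N : Bi k M E := fun xs ws => c xs * η ws with hN
      have hN' : dM N ∈ Zs π A (X 0) k (a + 2) d := by
        refine ⟨ε₂, hε₂, fun xs ws h1 h2 hD => ?_⟩
        rw [dM_apply]
        have e : (fun ys => N ys ws) = fun ys => η ws * c ys := by
          funext ys
          exact mul_comm _ _
        rw [e, dl_mul_left, hc xs h1 hD.1, mul_zero]
      have hT : F - N + W 0 - dE Y ∈ Zs π A (X 0) k (a + 1) d := by
        obtain ⟨r, hr, h⟩ := hd'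
        refine ⟨r, hr, fun xs ws h1 h2 hD => ?_⟩
        have h3 := h xs ws h1 h2 hD
        rcases xs with _ | ⟨x, l⟩
        · simp at h1
        have e : (F - N + W 0 - dE Y) (x :: l) ws = (F - ten c (fun x ws => η ws -
            s * ξ (x :: ws.map π)) - dE Y) (x :: l) ws := by
          show F (x :: l) ws - c (x :: l) * η ws + s * (ξ ((x :: l).take (0 + 1) ++ ws.map π) *
            c ((x :: l).drop 0)) - dE Y (x :: l) ws = F (x :: l) ws -
              c (x :: l) * (η ws - s * ξ (x :: ws.map π)) - dE Y (x :: l) ws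
          simp only [List.take_succ_cons, List.take_zero, List.cons_append, List.nil_append,
            List.drop_zero]
          ring
        rw [e, h3]
      have h1 := dM_mem hT
      have h2 := hW1 0 (by omega)
      rw [map_sub, map_add, map_sub, dM_dE] at h1
      have h3 := sub_mem (add_mem h2 (sub_mem hF hN')) h1
      convert h3 using 1
      rw [map_add, pow_zero, one_smul, zero_add, pow_one]
      module
    | succ j ih =>
      intro hj
      obtain ⟨Y', hY', h⟩ := ih (by omega)
      have hn := hnull j (by omega)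
      have nΦ : NrmM (W (j + 1) + (-1 : k) ^ j • dM Y') := (nW _).add (hY'.dM.smul _)
      obtain ⟨Y'', hY'', h4⟩ := exists_Y (p := a + 1 + j) hn nΦ (by
        rw [show a + 1 + j + 1 = a + 2 + j by omega, show d - 2 - j + 2 = d - j by omega]
        exact h)
      refine ⟨Y'', hY'', ?_⟩
      have h5 := dM_mem h4
      have e0 : dM (W (j + 1) + (-1 : k) ^ j • dM Y' - dE Y'') =
          dM (W (j + 1)) - dE (dM Y'') := by
        have := LinearMap.map_smul (dM (k := k) (M := M) (E := E)) ((-1 : k) ^ j) (dM Y')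
        rw [map_sub, map_add, this, dM_dM, smul_zero, add_zero, dM_dE]
      rw [e0] at h5
      have h6 := hW1 (j + 1) (by omega)
      rw [show a + 1 + j + 1 + 1 = a + 2 + (j + 1) by omega,
        show d - 2 - j + 1 = d - (j + 1) by omega] at h5
      have h7 := Submodule.smul_mem _ ((-1 : k) ^ (j + 2)) (sub_mem h5 h6)
      convert h7 using 1
      have e : (-1 : k) ^ (j + 2) * (-1 : k) ^ (j + 2) = 1 := by rw [← mul_pow]; simp
      have e1 : dE (W (j + 1 + 1) + (-1 : k) ^ (j + 1) • dM Y'') =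
          dE (W (j + 1 + 1)) + (-1 : k) ^ (j + 1) • dE (dM Y'') := by
        have := LinearMap.map_smul (dE (k := k) (M := M) (E := E)) ((-1 : k) ^ (j + 1)) (dM Y'')
        rw [map_add, this]
      have e2 : (-1 : k) ^ (j + 1) = -(-1 : k) ^ (j + 2) := by ring
      rw [e1, e2, smul_sub, smul_sub, smul_sub, smul_smul, show j + 1 + 1 = j + 2 from rfl, e,
        one_smul]
      module
  obtain ⟨Y', hY', r, hr, h⟩ := key (d - 1) (by omega)
  refine ⟨fun ys => -(s⁻¹ * (-1 : k) ^ (d - 1)) * Y' ys [], fun h => by omega, r, hr,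
    fun l hl hS => ?_⟩
  rcases l with _ | ⟨x, l⟩
  · simp at hl
  obtain ⟨w, hw, hx⟩ := hne x (hS.1 x (by simp))
  have h3 := h (x :: l) [w] (by rw [hl]; omega) (by simp; omega) ⟨hS, ⟨fun y hy => ?_,
    fun y hy z hz => ?_⟩, fun y hy z hz => ?_⟩
  · rw [dl_mul_left]
    rw [dE_apply, dl_one] at h3
    have h4 : s * (ξ ((x :: l).take (d - 1 + 1 + 1) ++ ([] : List E).map π) *
        c ((x :: l).drop (d - 1 + 1))) + (-1) ^ (d - 1) * dl (fun ys => Y' ys []) (x :: l) = 0 := h3
    rw [show d - 1 + 1 = d by omega, List.map_nil, List.append_nil] at h4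
    have h5 : ξ ((x :: l).take (d + 1)) * c ((x :: l).drop d) =
        s⁻¹ * (s * (ξ ((x :: l).take (d + 1)) * c ((x :: l).drop d))) := by
      rw [← mul_assoc, inv_mul_cancel₀ hs, one_mul]
    show ξ ((x :: l).take (d + 1)) * c ((x :: l).drop d) = _
    rw [h5]
    linear_combination s⁻¹ * h4
  · rw [List.mem_singleton.1 hy]; exact hw
  · rw [List.mem_singleton.1 hy, List.mem_singleton.1 hz, dist_self]; exact hr
  · rw [List.mem_singleton.1 hz, hx]
    exact hS.2 y hy x (by simp)

end

end Vale.Agent.P216.H994
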