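import Vale.Agent.P216.H994.FibZ
import Vale.Agent.P216.H971Z.Frame
import Vale.Agent.P216.H539Z.Z2
import Vale.Agent.P216.D337.Mid1

/-!
# P216-B7, Z10: the last step, in 971's frame

`FNX M h`: the fibre data with the clause over the base point. `z10_of`: the conclusion of
`Z10Goal` for one `M`, `h` from `G2Goal`, `G3Goal`, `F1Goal`, `F2Goal`, `FNX` and the compactness of
`PZ`.
-/

set_option linter.all false

open Set BoundedContinuousFunction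

namespace Vale.Agent.P216.H994

open Vale.Agent.P216.Sl Vale.Agent.P216.PS Vale.Agent.P216.B7 Vale.Agent.P216.E2L
  Vale.Agent.P216.H892 Vale.Agent.P216.H971Z Vale.Agent.P216.D907 Vale.Agent.P216.H977C
open Vale.Agent.P216.MV337 (evz)
open Vale.Agent.P216.H456 (PF PF_mono P_subset_PF)
open Vale.Agent.P216.H971B (Om0)

/-- The fibre data over the slabs, with the clause over the base point. -/
def FNX (M : Type) [MetricSpace M] (h : C(M, Circle)) : Prop := ∀ p' ∈ Xt h, ∀ R : ℝ,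
  ∃ C : ℝ, 0 ≤ C ∧
  ∃ (φ : M × ℝ → ℝ → (ℝ →ᵇ M) × ℝ → ℝ →ᵇ M) (ψ : M × ℝ → ℝ → (ℝ →ᵇ M) → (ℝ →ᵇ M) × ℝ),
    ∀ t > 0,
      (∀ T, t + C ≤ T → FibN stz (Slb h R) (XZ h p' (T + C)) (XZ h p' t) (PZ h p' p' T)
        (PZ h p' p' (t + C)) (fun x => φ x t) fun x => ψ x T) ∧
      FibC stz (Slb h R) (XZ h p' t) (PZ h p' p' (t + C)) (fun x => φ x t) ∧
      (p' ∈ Slb h R → ∀ r > 0, ∃ δ > 0, CtgC (PZ h p' p' (t + C)) (PZ h p' p' t) δ r id
        (fun v => φ p' t (v, p'.2)))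

section

variable {M : Type} [MetricSpace M] {h : C(M, Circle)} {p p' p'' : M × ℝ} {R R' t t' : ℝ}

theorem Slb_mono (hR : R ≤ R') : Slb h R ⊆ Slb h R' := fun _ hp => ⟨hp.1, hp.2.trans hR⟩

theorem mem_Slb (hp : p ∈ Xt h) : p ∈ Slb h |p.2| := ⟨hp, le_rfl⟩

/-- The constant path. -/
theorem cst_mem_PZ (hp : p ∈ Xt h) (t : ℝ) : cst p.1 ∈ PZ h p p t :=
  ⟨⟨fun u v => by
      show dist p.1 p.1 ≤ _
      rw [dist_self]; exact abs_nonneg _, fun _ _ => rfl, fun _ _ => rfl⟩,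
    fun _ => p.2, continuous_const, fun _ => hp, fun _ _ => rfl, fun _ _ => rfl⟩

variable [CompactSpace M]

/-- Concatenation. -/
theorem cat_mem_PZ (ht : 0 ≤ t) (ht' : 0 ≤ t') {v w : ℝ →ᵇ M} (hv : v ∈ PZ h p p' t)
    (hw : w ∈ PZ h p' p'' t') : cat t v w ∈ PZ h p p'' (t + t') := by
  refine ⟨cat_mem ht ht' hv.1 hw.1, ?_⟩
  obtain ⟨θ, a1, a2, a3, a4⟩ := hv.2
  obtain ⟨η, b1, b2, b3, b4⟩ := hw.2
  have hvw : v t = w 0 := by rw [eq_right hv.1 le_rfl, eq_left hw.1 le_rfl]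
  refine ⟨fun u => if u ≤ t then θ u else η (u - t), ?_, fun u => ?_, fun u hu => ?_,
    fun u hu => ?_⟩
  · refine Continuous.if_le a1 (b1.comp (continuous_id.sub continuous_const)) continuous_id
      continuous_const fun u hu => ?_
    have hu' : u = t := hu
    rw [hu', a4 t le_rfl, b3 (t - t) (by simp)]
  · rw [cat_apply hv.1.1 hw.1.1 hvw]
    show _ = ex (if u ≤ t then θ u else η (u - t))
    by_cases hu : u ≤ t
    · rw [catf_left hu, if_pos hu]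
      exact a2 u
    · rw [catf_right hvw (le_of_not_ge hu), if_neg hu]
      exact b2 _
  · show (if u ≤ t then θ u else η (u - t)) = _
    rw [if_pos (hu.trans ht)]
    exact a3 u hu
  · show (if u ≤ t then θ u else η (u - t)) = _
    by_cases h1 : u ≤ t
    · have e : u = t := le_antisymm h1 (by linarith)
      have e2 : t' = 0 := by linarith
      rw [if_pos h1, e, a4 t le_rfl, ← b3 0 le_rfl, b4 0 (by rw [e2])]
    · rw [if_neg h1]
      exact b4 _ (by linarith)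

/-- **The system `ZSys` of the covering.** -/
theorem zSys_Xt (k : Type) [Field k] (g2 : G2Goal M h) (g3 : G3Goal M h) (f1 : F1Goal M h)
    (f2 : F2Goal M h) (fn : FNX M h) (hK : ∀ p p' t, IsCompact (PZ h p p' t)) (hp : p ∈ Xt h) :
    ZSys k (stz (M := M)) (Slb h) (XZ h p) (PZ h p p) p fun v => (v, p.2) := by
  refine zSys_of (fun _ _ => Slb_mono) (fun _ _ => XZ_mono) (fun _ _ => PZ_mono)
    (fun w w' => dist_stz_le w w') (fun v v' => ?_) (fun t v hv => ?_) (fun R => ?_)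
    (fun t => f1 p hp t) (fun t => ?_) (fun t => hK p p t) ⟨_, mem_Slb hp⟩ (fun t => ?_)
    (fun R => fn p hp R)
  · rw [Prod.dist_eq]
    exact max_le le_rfl (by rw [dist_self]; exact dist_nonneg)
  · exact mem_XZ_iff.2 ⟨hv, rfl⟩
  · obtain ⟨t, -, ht⟩ := g2 (max R |p.2|)
    refine ⟨t, fun x hx => ?_⟩
    obtain ⟨w, hw⟩ := ht x (Slb_mono (le_max_left _ _) hx) p
      (Slb_mono (le_max_right _ _) (mem_Slb hp))
    exact ⟨(w, x.2), mem_XZ_iff.2 ⟨hw, rfl⟩⟩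
  · exact ⟨max t 0, le_max_left _ _, fun q hq F hF =>
      (f2 p hp (max t 0) (le_max_right _ _) k q hq F hF).mono (XZ_mono (le_max_left _ _))⟩
  · obtain ⟨T, hT, hj⟩ := g3 |p.2| t
    exact ⟨T, hT, hj p (mem_Slb hp) p (mem_Slb hp)⟩

/-- **The classes `η` on the fibres.** -/
theorem exL_eta_fib {k : Type} [Field k] (g2 : G2Goal M h) (g3 : G3Goal M h) {p' : M × ℝ}
    (hp' : p' ∈ Xt h) (R T : ℝ) (hT : 0 ≤ T) : ∃ T₀ : ℕ, ∀ {q N : ℕ} {U : List M → k}, 1 ≤ q →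
      Nrm U → ExL (Om0 M p'.1 T₀) q (H140.eta N U) → ∀ p ∈ Slb h R,
        ExL {z | z ∈ XZ h p' T ∧ stz z = p} q fun l => H140.eta N U (l.map Prod.fst) := by
  obtain ⟨t₂, -, h2⟩ := g2 (max R |p'.2|)
  have hp1 : p' ∈ Slb h (max R |p'.2|) := Slb_mono (le_max_right _ _) (mem_Slb hp')
  set m : ℕ := ⌈t₂⌉₊ with hm
  have hm0 : (0:ℝ) ≤ m := Nat.cast_nonneg m
  obtain ⟨t₃, ht₃, h3⟩ := g3 |p'.2| (m + T)
  refine ⟨⌈t₃⌉₊, fun {q N U} hq hU hex p hp => ?_⟩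
  obtain ⟨v, hv⟩ := h2 p' hp1 p (Slb_mono (le_max_left _ _) hp)
  have hv : v ∈ PZ h p' p m := PZ_mono (Nat.le_ceil t₂) hv
  obtain ⟨g, hg0, ε, hε, hg⟩ := hex
  refine ⟨fun l => g (l.map fun z => cat m v z.1), fun h => by omega, ε, hε, fun l hl hs => ?_⟩
  have hw : ∀ z ∈ l, z.1 ∈ PZ h p p' T := fun z hz => (mem_XZ_iff.1 (hs.1 z hz)).1
  have hvw : ∀ z ∈ l, v m = z.1 0 := fun z hz => by
    rw [eq_right hv.1 le_rfl, eq_left (hw z hz).1 le_rfl]
  have e1 : H140.eta N U ((l.map Prod.fst).map (cat m v)) = H140.eta N U (l.map Prod.fst) := by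
    refine eta_front N hU m (fun u => v u) (cat m v) _ (by rw [List.length_map]; omega)
      fun w hw' => ?_
    obtain ⟨z, hz, rfl⟩ := List.mem_map.1 hw'
    refine ⟨fun u h0 hu => ?_, fun u hu => ?_⟩
    · rw [cat_apply hv.1.1 (hw z hz).1.1 (hvw z hz), catf_left hu]
    · rw [cat_apply hv.1.1 (hw z hz).1.1 (hvw z hz), catf_right (hvw z hz) hu]
  show H140.eta N U (l.map Prod.fst) = _
  rw [← e1, dl_map, List.map_map]
  have e2 : l.map (cat m v ∘ Prod.fst) = l.map fun z => cat m v z.1 := rfl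
  rw [e2]
  refine hg _ (by rw [List.length_map]; exact hl) ⟨fun w hw' => ?_, fun w hw' w' hw'' => ?_⟩
  · obtain ⟨z, hz, rfl⟩ := List.mem_map.1 hw'
    have h4 := cat_mem_PZ hm0 hT hv (hw z hz)
    have h5 := h3 p' (mem_Slb hp') p' (mem_Slb hp') _ h4 _ (cst_mem_PZ hp' _)
    have h6 : PZ h p' p' t₃ ⊆ P p'.1 p'.1 (⌈t₃⌉₊ : ℝ) := fun w hw =>
      P_mono (Nat.le_ceil t₃) hw.1
    exact ⟨h6 (PZ_mono ht₃ h4), h5.mono h6⟩
  · obtain ⟨z, hz, rfl⟩ := List.mem_map.1 hw'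
    obtain ⟨z', hz', rfl⟩ := List.mem_map.1 hw''
    refine (dist_cat_cat_le hv.1.1 hv.1.1 (hw z hz).1.1 (hw z' hz').1.1 (hvw z hz)
      (hvw z' hz')).trans_lt ?_
    rw [dist_self]
    refine max_lt hε (lt_of_le_of_lt ?_ (hs.2 z hz z' hz'))
    rw [Prod.dist_eq]
    exact le_max_left _ _

/-- **The conclusion of `Z10Goal`.** -/
theorem z10_of (g2 : G2Goal M h) (g3 : G3Goal M h) (f1 : F1Goal M h)
    (f2 : F2Goal M h) (fn : FNX M h) (hK : ∀ p p' t, IsCompact (PZ h p p' t))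
    (k : Type) [Field k] (q : ℕ) (hq : 1 ≤ q) (hNZ : ∀ j, 1 ≤ j → j ≤ q → NZ k h j)
    (U : List M → k) (nU : Nrm U) (cU : CocL (univ : Set M) (q + 1) U)
    (hne : ∃ R, ¬ ExL (Slb h R) (q + 1) fun l => U (l.map Prod.fst)) (x : M) :
    ∃ T N0 : ℕ, ∀ N ≥ N0, ¬ ExL (Om0 M x T) q (H140.eta N U) := by
  obtain ⟨R, hR⟩ := hne
  obtain ⟨β, hβ⟩ := H539Z.ex_surj (h x)
  have hp' : ((x, β) : M × ℝ) ∈ Xt h := hβ.symm
  set p' : M × ℝ := (x, β) with hp'def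
  have S := zSys_Xt k g2 g3 f1 f2 fn hK hp'
  obtain ⟨ε, hε, hc⟩ := cU
  -- the class on `M × ℝ`
  set ξ : List (M × ℝ) → k := fun l => U (l.map Prod.fst) with hξ
  have nξ : Nrm ξ := by
    intro l hl
    refine nU _ fun hc => hl ?_
    rw [List.isChain_map] at hc
    exact hc.imp fun a b hab h => hab (by rw [h])
  have hcξ : ∃ ε > 0, ∀ l, l.length = q + 1 + 2 → SmL (univ : Set (M × ℝ)) ε l → dl ξ l = 0 := by
    refine ⟨ε, hε, fun l hl hs => ?_⟩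
    rw [hξ, dl_map]
    refine hc _ (by rw [List.length_map, hl]) ⟨fun _ _ => mem_univ _, fun y hy z hz => ?_⟩
    obtain ⟨a, ha, rfl⟩ := List.mem_map.1 hy
    obtain ⟨b, hb, rfl⟩ := List.mem_map.1 hz
    refine lt_of_le_of_lt ?_ (hs.2 a ha b hb)
    rw [Prod.dist_eq]
    exact le_max_left _ _
  obtain ⟨T, hT⟩ := S.fin hq hNZ nξ hcξ R
  obtain ⟨T₀, hT₀⟩ := exL_eta_fib (k := k) g2 g3 hp' R (max T 0) (le_max_right _ _)
  obtain ⟨N0, hN0⟩ := exists_nat_gt (4 / ε)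
  by_contra hcon
  push Not at hcon
  obtain ⟨N, hN, hex⟩ := hcon T₀ N0
  have hN1 : 1 / ((N : ℝ) + 1) < ε / 4 := by
    have h1 : (N0 : ℝ) ≤ N := by exact_mod_cast hN
    have h2 : 4 / ε < (N : ℝ) + 1 := by linarith
    have h3 : (0:ℝ) < (N : ℝ) + 1 := by positivity
    rw [div_lt_iff₀ h3]
    rw [div_lt_iff₀ hε] at h2
    nlinarith
  obtain ⟨-, hη, -, -, -⟩ := etaOut k M (q + 1) N ε U (by omega) hε nU hc hN1
  refine hR (hT ((-1) ^ (q + 1)) (pow_ne_zero _ (by simp)) (fun l => H140.eta N U (l.map Prod.fst))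
    ⟨ε / 4, by positivity, fun ws hw hs => ?_⟩ fun p hp => ?_)
  · rw [dl_map]
    have e := hη p'.1 T (ws.map Prod.fst) (by rw [List.length_map, hw]) ⟨fun w hw => ?_,
      fun w hw w' hw' => ?_⟩
    · rw [e]
      congr 1
      show U ((ws.map Prod.fst).map evz) = U ((ws.map stz).map Prod.fst)
      rw [List.map_map, List.map_map]
      rfl
    · obtain ⟨z, hz, rfl⟩ := List.mem_map.1 hw
      exact (hs.1 z hz).1
    · obtain ⟨z, hz, rfl⟩ := List.mem_map.1 hw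
      obtain ⟨z', hz', rfl⟩ := List.mem_map.1 hw'
      refine lt_of_le_of_lt ?_ (hs.2 z hz z' hz')
      rw [Prod.dist_eq]
      exact le_max_left _ _
  · exact (hT₀ hq nU hex p hp).mono fun z hz => ⟨XZ_mono (le_max_left _ _) hz.1, hz.2⟩

end

end Vale.Agent.P216.H994
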